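import Vale.Agent.P346.Defs

/-!
# P346: internal definitions shared by the parts of the proof
-/

namespace Vale.Agent.P346

open MvPolynomial

universe u v

/-! ## Circuits: the terms of the normal form -/

/-- A product of `2ρ` homogeneous polynomials of degree `1` or in `[2h, 4h)` (total degree at most
`n`) and an arbitrary polynomial. -/
def IsTerm {K : Type u} [CommSemiring K] {σ : Type v} (h ρ n : ℕ) (P : MvPolynomial σ K) : Prop :=
  ∃ (G : Fin (2 * ρ) → MvPolynomial σ K) (D : Fin (2 * ρ) → ℕ) (R : MvPolynomial σ K),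
    (∀ j, (G j).IsHomogeneous (D j)) ∧ (∀ j, D j = 1 ∨ (2 * h ≤ D j ∧ D j < 4 * h)) ∧
    ∑ j, D j ≤ n ∧ P = (∏ j, G j) * R

/-! ## The measure -/

section Measure

variable {K : Type u} [Field K] {ι : Type v} [DecidableEq ι] [Fintype ι]

/-- coefficient of the squarefree monomial `∏_{i ∈ S} z_i` -/
noncomputable def sqCoeff (P : MvPolynomial ι K) (S : Finset ι) : K :=
  P.coeff (∑ i ∈ S, Finsupp.single i 1)

/-- the matrix `M_P`: entry `(U, U')` is the coefficient of `z^{U \ U'}` if `U' ⊆ U`, else `0` -/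
noncomputable def transfer (P : MvPolynomial ι K) : Matrix (Finset ι) (Finset ι) K :=
  Matrix.of fun U U' => if U' ⊆ U then sqCoeff P (U \ U') else 0

/-- the grade of a finite set of variables -/
def grade (φ : ι → ℤ) (U : Finset ι) : ℤ := ∑ i ∈ U, φ i

/-- rank of the block of `transfer P` with rows of grade `g` and columns of grade `g - Φ` -/
noncomputable def blockRank (φ : ι → ℤ) (Φ g : ℤ) (P : MvPolynomial ι K) : ℕ :=
  (Matrix.of fun (U : {U : Finset ι // grade φ U = g})
    (U' : {U : Finset ι // grade φ U = g - Φ}) => transfer P U.1 U'.1).rank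

/-- the (unnormalised) weighted rank measure -/
noncomputable def mu (φ : ι → ℤ) (Φ : ℤ) (q : ℝ) (P : MvPolynomial ι K) : ℝ :=
  ∑ g ∈ (Finset.univ : Finset (Finset ι)).image (grade φ), q ^ g * blockRank φ Φ g P

/-- total weight of all sets -/
noncomputable def Ztot (φ : ι → ℤ) (q : ℝ) : ℝ := ∑ U : Finset ι, q ^ (grade φ U)

end Measure

/-! ## The hard polynomial -/

/-- number of `true`s before the `j`-th `false` of `u` (all `true`s if there are fewer `false`s) -/
def kk : (m : ℕ) → ℕ → (Fin m → Bool) → ℕ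
  | 0, _, _ => 0
  | _ + 1, 0, _ => 0
  | m + 1, j + 1, u => if u 0 then 1 + kk m (j + 1) (Fin.tail u) else kk m j (Fin.tail u)

/-- the good rows -/
def Good (b m : ℕ) : (T : ℕ) → ℕ → (Fin T → Fin m → Bool) → Prop
  | 0, j, _ => 1 ≤ j
  | T + 1, j, U => Good b m T (min b (kk m j (U 0))) (Fin.tail U)

/-- variables of the Hankel projection: `(t, y)`, `t < n`, `y < 2n - 1` -/
abbrev HVar (n : ℕ) := Fin n × Fin (2 * n - 1)

/-- the substitution `x^{(t)}_{i,j} ↦ z_{t, i+j}` -/
def hankelMap (n : ℕ) (v : Fin n × Fin n × Fin n) : HVar n :=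
  (v.1, ⟨v.2.1.1 + v.2.2.1, by have := v.2.1.2; have := v.2.2.2; omega⟩)

/-- the Hankel projection of `IMM_{n,n}` -/
noncomputable def hankelPoly (K : Type u) [Field K] (n : ℕ) : MvPolynomial (HVar n) K :=
  rename (hankelMap n) (IMM K n n)

/-- characteristic function of a set of variables, block by block -/
def chi {n m : ℕ} (U : Finset (Fin n × Fin m)) : Fin n → Fin m → Bool :=
  fun t y => decide ((t, y) ∈ U)

/-- number of `Y`-matrices among the first `s` -/
def kY (h s : ℕ) : ℕ := 3 * h * s / (6 * h + 1)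

/-- the weight of the `s`-th matrix (`s = 0, 1, …`): `3h` (type `X`) or `-(3h+1)` (type `Y`) -/
def ty (h s : ℕ) : ℤ := if kY h (s + 1) = kY h s then 3 * h else -(3 * h + 1)

/-- the weight of a variable; the last block has `s = 0` -/
def phiH (h n : ℕ) (i : HVar n) : ℤ := ty h (Fin.rev i.1)

/-- the product weight of a family of sets; the last block has index `0` -/
noncomputable def wt (lam : ℕ → ℝ) {T m : ℕ} (U : Fin T → Fin m → Bool) : ℝ :=
  ∏ t : Fin T, ∏ y : Fin m, if U t y then lam (Fin.rev t) else 1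

end Vale.Agent.P346
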