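import Mathlib

/-!
# P346: iterated matrix multiplication and syntactically homogeneous ΣΠΣΠΣ circuits

The definitions the final statement rests on.
-/

namespace Vale.Agent.P346

open MvPolynomial

universe u v

/-- `IMM_{w,d}`, the sum over all index sequences `i_0 = 1, i_1, …, i_{d-1}, i_d = 1` in `[w]` of
`x^{(1)}_{i_0,i_1} x^{(2)}_{i_1,i_2} ⋯ x^{(d)}_{i_{d-1},i_d}`, i.e. the `(1,1)` entry of the
product of `d` generic `w × w` matrices.  The variable `x^{(t)}_{i,j}` is `X (t, i, j)`, and the
index `1 ∈ [w]` of the text is the element with value `0` of `Fin w`. -/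
noncomputable def IMM (K : Type u) [CommSemiring K] (w d : ℕ) :
    MvPolynomial (Fin d × Fin w × Fin w) K :=
  ∑ p : Fin (d + 1) → Fin w,
    if (p 0 : ℕ) = 0 ∧ (p (Fin.last d) : ℕ) = 0 then
      ∏ t : Fin d, X (t, p t.castSucc, p t.succ)
    else 0

/-- A ΣΠΣΠΣ circuit over `K` with variables `σ`.  Vertices: `nLeaf` leaves (variables or elements
of `K`), `nSum1` bottom sum gates reading leaves, `nProd2` product gates reading bottom sums,
`nSum3` sum gates reading these, `nProd4` product gates reading these, and one output sum gate
reading the latter.  A sum gate is given by the coefficients of its inputs (coefficient `0` means: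
no edge); a product gate is given by the multiplicities of its inputs (multiplicity `0`: no
edge). -/
structure Circuit (K : Type u) (σ : Type v) where
  /-- number of leaves -/
  nLeaf : ℕ
  /-- number of bottom sum gates -/
  nSum1 : ℕ
  /-- number of lower product gates -/
  nProd2 : ℕ
  /-- number of middle sum gates -/
  nSum3 : ℕ
  /-- number of upper product gates -/
  nProd4 : ℕ
  /-- the label of each leaf, a variable or a constant -/
  leaf : Fin nLeaf → σ ⊕ K
  /-- coefficients of the bottom sum gates -/
  sum1 : Fin nSum1 → Fin nLeaf → K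
  /-- multiplicities of the lower product gates -/
  prod2 : Fin nProd2 → Fin nSum1 → ℕ
  /-- coefficients of the middle sum gates -/
  sum3 : Fin nSum3 → Fin nProd2 → K
  /-- multiplicities of the upper product gates -/
  prod4 : Fin nProd4 → Fin nSum3 → ℕ
  /-- coefficients of the output sum gate -/
  out : Fin nProd4 → K

namespace Circuit

variable {K : Type u} {σ : Type v}

/-- The size of a circuit is its number of vertices (leaves and gates). -/
def size (C : Circuit K σ) : ℕ :=
  C.nLeaf + C.nSum1 + C.nProd2 + C.nSum3 + C.nProd4 + 1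

section Eval

variable [CommSemiring K]

/-- the polynomial at a leaf -/
noncomputable def leafVal (C : Circuit K σ) (l : Fin C.nLeaf) : MvPolynomial σ K :=
  Sum.elim MvPolynomial.X MvPolynomial.C (C.leaf l)

/-- the polynomial computed by a bottom sum gate -/
noncomputable def sum1Val (C : Circuit K σ) (g : Fin C.nSum1) : MvPolynomial σ K :=
  ∑ l, MvPolynomial.C (C.sum1 g l) * C.leafVal l

/-- the polynomial computed by a lower product gate -/
noncomputable def prod2Val (C : Circuit K σ) (g : Fin C.nProd2) : MvPolynomial σ K :=
  ∏ l, C.sum1Val l ^ C.prod2 g l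

/-- the polynomial computed by a middle sum gate -/
noncomputable def sum3Val (C : Circuit K σ) (g : Fin C.nSum3) : MvPolynomial σ K :=
  ∑ l, MvPolynomial.C (C.sum3 g l) * C.prod2Val l

/-- the polynomial computed by an upper product gate -/
noncomputable def prod4Val (C : Circuit K σ) (g : Fin C.nProd4) : MvPolynomial σ K :=
  ∏ l, C.sum3Val l ^ C.prod4 g l

/-- the polynomial computed by the circuit (at its output gate) -/
noncomputable def eval (C : Circuit K σ) : MvPolynomial σ K :=
  ∑ l, MvPolynomial.C (C.out l) * C.prod4Val l

end Eval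

/-- the formal degree of a leaf: `1` for a variable, `0` for a constant -/
def leafDeg (C : Circuit K σ) (l : Fin C.nLeaf) : ℕ :=
  Sum.elim (fun _ => 1) (fun _ => 0) (C.leaf l)

/-- Syntactic homogeneity: there are formal degrees `d1` of the bottom sums, `d3` of the middle
sums and `d5` of the output such that all inputs of each sum gate have its degree; the formal
degree of a product gate is the sum of the degrees of its inputs, with multiplicity. -/
def IsSyntHomogeneous [Zero K] (C : Circuit K σ) : Prop :=
  ∃ (d1 : Fin C.nSum1 → ℕ) (d3 : Fin C.nSum3 → ℕ) (d5 : ℕ),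
    (∀ g l, C.sum1 g l ≠ 0 → C.leafDeg l = d1 g) ∧
    (∀ g l, C.sum3 g l ≠ 0 → ∑ i, C.prod2 l i * d1 i = d3 g) ∧
    (∀ l, C.out l ≠ 0 → ∑ i, C.prod4 l i * d3 i = d5)

end Circuit

/-- `s_K(n)`: the least size of a syntactically homogeneous ΣΠΣΠΣ circuit over `K` computing
`IMM_{n,n}` as a formal polynomial. -/
noncomputable def minSize (K : Type u) [Field K] (n : ℕ) : ℕ :=
  sInf {s : ℕ | ∃ C : Circuit K (Fin n × Fin n × Fin n),
    C.IsSyntHomogeneous ∧ C.eval = IMM K n n ∧ C.size = s}

end Vale.Agent.P346
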