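import Vale.Agent.P346.Core
import Vale.Agent.P346.H32.Weights

/-!
# P346: the weight of the good rows
-/

namespace Vale.Agent.P346

namespace GoodWeightAux

theorem kk_eq : ∀ (m j : ℕ) (u : Fin m → Bool), kk m j u = Vale.P346.H32.kk m j u
  | 0, _, _ => rfl
  | _ + 1, 0, _ => rfl
  | m + 1, j + 1, u => by
    simp only [kk, Vale.P346.H32.kk, kk_eq m]

theorem good_iff (b m : ℕ) : ∀ (T j : ℕ) (U : Fin T → Fin m → Bool),
    Good b m T j U ↔ Vale.P346.H32.good b m T j U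
  | 0, _, _ => Iff.rfl
  | T + 1, j, U => by
    simp only [Good, Vale.P346.H32.good, kk_eq, good_iff b m T]

theorem kY_succ (h T : ℕ) : kY h (T + 1) = kY h T ∨ kY h (T + 1) = kY h T + 1 := by
  unfold kY
  have h1 : 3 * h * T / (6 * h + 1) ≤ 3 * h * (T + 1) / (6 * h + 1) :=
    Nat.div_le_div_right (Nat.mul_le_mul_left _ (Nat.le_succ T))
  have h2 : 3 * h * (T + 1) / (6 * h + 1) ≤ 3 * h * T / (6 * h + 1) + 1 := by
    rw [← Nat.add_div_right _ (by omega : 0 < 6 * h + 1)]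
    apply Nat.div_le_div_right
    nlinarith
  omega

theorem sum_ty_aux (h T : ℕ) :
    ∑ s ∈ Finset.range T, ty h s = 3 * (h : ℤ) * T - (6 * h + 1) * kY h T := by
  induction T with
  | zero => simp [kY]
  | succ T ih =>
    rw [Finset.sum_range_succ, ih]
    unfold ty
    rcases kY_succ h T with h1 | h1
    · rw [if_pos h1, h1]
      push_cast
      ring
    · rw [if_neg (by omega), h1]
      push_cast
      ring

theorem sum_ty_eq (h T : ℕ) :
    ∑ s ∈ Finset.range T, ty h s = ((3 * h * T % (6 * h + 1) : ℕ) : ℤ) := by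
  rw [sum_ty_aux]
  have h1 := Nat.mod_add_div (3 * h * T) (6 * h + 1)
  unfold kY
  have h2 : ((3 * h * T % (6 * h + 1) : ℕ) : ℤ) + (6 * (h : ℤ) + 1) *
      ((3 * h * T / (6 * h + 1) : ℕ) : ℤ) = 3 * h * T := by exact_mod_cast h1
  linarith

/-- sets of variables as Boolean families -/
def chiEquiv (n m : ℕ) : Finset (Fin n × Fin m) ≃ (Fin n → Fin m → Bool) where
  toFun := chi
  invFun F := Finset.univ.filter fun x => F x.1 x.2 = true
  left_inv U := by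
    ext x
    simp [chi]
  right_inv F := by
    funext t y
    simp [chi]

theorem zpow_grade {ι : Type*} [DecidableEq ι] (φ : ι → ℤ) {q : ℝ} (hq : 0 < q) (U : Finset ι) :
    q ^ grade φ U = ∏ i ∈ U, q ^ φ i := by
  unfold grade
  induction U using Finset.induction_on with
  | empty => simp
  | insert a s ha ih => rw [Finset.sum_insert ha, Finset.prod_insert ha, zpow_add₀ hq.ne', ih]

/-- the weights of the blocks -/
noncomputable def lw (h n : ℕ) (q : ℝ) (t : Fin n) : ℝ := q ^ ty h (Fin.rev t)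

theorem qgrade (h n : ℕ) {q : ℝ} (hq : 0 < q) (U : Finset (HVar n)) :
    q ^ grade (phiH h n) U = Vale.P346.H32.tw (2 * n - 1) n (lw h n q) (chi U) := by
  rw [zpow_grade _ hq]
  unfold Vale.P346.H32.tw Vale.P346.H32.bw
  rw [← Fintype.prod_prod_type' (fun (t : Fin n) (y : Fin (2 * n - 1)) =>
    if chi U t y = true then lw h n q t else 1)]
  simp only [chi, decide_eq_true_eq, Prod.mk.eta]
  rw [Finset.prod_ite_mem Finset.univ U (fun x => lw h n q x.1), Finset.univ_inter]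
  rfl

theorem sum_tw (m T : ℕ) (l : Fin T → ℝ) :
    ∑ U, Vale.P346.H32.tw m T l U = ∏ t, (1 + l t) ^ m := by
  unfold Vale.P346.H32.tw
  simp only [← Vale.P346.H32.sum_bw]
  rw [Finset.prod_univ_sum]
  simp

theorem Ztot_eq (h n : ℕ) {q : ℝ} (hq : 0 < q) :
    Ztot (phiH h n) q = ∏ t, (1 + lw h n q t) ^ (2 * n - 1) := by
  unfold Ztot
  rw [← sum_tw, ← Equiv.sum_comp (chiEquiv n (2 * n - 1))]
  exact Finset.sum_congr rfl fun U _ => qgrade h n hq U

open Classical in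
theorem GW_eq (h n : ℕ) {q : ℝ} (hq : 0 < q) :
    (∑ U : Finset (HVar n),
        if Good n (2 * n - 1) n 1 (chi U) then q ^ grade (phiH h n) U else 0) =
      Vale.P346.H32.GW n (2 * n - 1) n 1 (lw h n q) := by
  unfold Vale.P346.H32.GW
  rw [← Equiv.sum_comp (chiEquiv n (2 * n - 1))]
  apply Finset.sum_congr rfl
  intro U _
  rw [qgrade h n hq U]
  change (if Good n (2 * n - 1) n 1 (chi U) then _ else _) =
    (if Vale.P346.H32.good n (2 * n - 1) n 1 (chi U) then _ else _)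
  by_cases hg : Good n (2 * n - 1) n 1 (chi U)
  · rw [if_pos hg, if_pos ((good_iff _ _ _ _ _).1 hg)]
    rfl
  · rw [if_neg hg, if_neg fun h => hg ((good_iff _ _ _ _ _).2 h)]

theorem prod_suffix (h n : ℕ) {q : ℝ} (hq : 0 < q) (i : ℕ) :
    ∏ t : Fin n, (if i ≤ t.val then lw h n q t else 1) =
      q ^ ∑ s ∈ Finset.range (n - i), ty h s := by
  have h0 : ∀ S : Finset ℕ, q ^ ∑ s ∈ S, ty h s = ∏ s ∈ S, q ^ ty h s := fun S =>
    zpow_grade (ty h) hq S
  rw [h0, ← Equiv.prod_comp Fin.revPerm]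
  have h1 : ∀ t : Fin n, (if i ≤ (Fin.revPerm t).val then lw h n q (Fin.revPerm t) else 1) =
      (fun s : ℕ => if i ≤ n - (s + 1) then q ^ ty h s else 1) t.val := by
    intro t
    simp only [Fin.revPerm_apply, Fin.val_rev, lw, Fin.rev_rev]
  rw [Finset.prod_congr rfl fun t _ => h1 t,
    ← Finset.prod_range (fun s : ℕ => if i ≤ n - (s + 1) then q ^ ty h s else 1),
    ← Finset.prod_filter]
  apply Finset.prod_congr _ fun _ _ => rfl
  ext s
  simp only [Finset.mem_filter, Finset.mem_range]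
  omega

/-- the analytic estimate -/
theorem numeric : ∃ N₀ : ℕ, ∀ n : ℕ, N₀ ≤ n → 1 ≤ n ∧
    (1 / 2) * (n : ℝ) ^ (-(3 / 4) : ℝ) * Real.exp (-√n) ≤
      ((1 - (1 - (n : ℝ) ^ (-(3 / 4) : ℝ)) ^ n) / (1 + (n : ℝ) ^ (-(1 / 2) : ℝ))) ^ n *
        (n : ℝ) ^ (-(3 / 4) : ℝ) := by
  have hlim : Filter.Tendsto (fun n : ℕ => ((n : ℝ) ^ (1 / 4 : ℝ)) ^ 4 *
      Real.exp (-((n : ℝ) ^ (1 / 4 : ℝ)))) Filter.atTop (nhds 0) :=
    (Real.tendsto_pow_mul_exp_neg_atTop_nhds_zero 4).comp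
      ((tendsto_rpow_atTop (by norm_num : (0 : ℝ) < 1 / 4)).comp tendsto_natCast_atTop_atTop)
  have hev := (hlim.eventually (gt_mem_nhds (show (0 : ℝ) < 1 / 2 by norm_num))).and
    (Filter.eventually_ge_atTop 1)
  obtain ⟨N₀, hN⟩ := Filter.eventually_atTop.1 hev
  refine ⟨N₀, fun n hn => ⟨(hN n hn).2, ?_⟩⟩
  obtain ⟨hn1, hn2⟩ := hN n hn
  have hnR : (1 : ℝ) ≤ n := by exact_mod_cast hn2
  have hn0 : (0 : ℝ) < n := by linarith
  set a : ℝ := (n : ℝ) ^ (-(3 / 4) : ℝ) with ha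
  set d : ℝ := (n : ℝ) ^ (-(1 / 2) : ℝ) with hd
  set x : ℝ := (n : ℝ) ^ (1 / 4 : ℝ) with hx
  have ha0 : 0 < a := Real.rpow_pos_of_pos hn0 _
  have hd0 : 0 < d := Real.rpow_pos_of_pos hn0 _
  have ha1 : a ≤ 1 := Real.rpow_le_one_of_one_le_of_nonpos hnR (by norm_num)
  have hx4 : x ^ 4 = n := by
    rw [hx, ← Real.rpow_natCast, ← Real.rpow_mul hn0.le]
    norm_num
  have han : (n : ℝ) * a = x := by
    rw [ha, hx]
    nth_rewrite 1 [← Real.rpow_one (n : ℝ)]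
    rw [← Real.rpow_add hn0]
    norm_num
  have hdn : (n : ℝ) * d = √n := by
    rw [hd, Real.sqrt_eq_rpow]
    nth_rewrite 1 [← Real.rpow_one (n : ℝ)]
    rw [← Real.rpow_add hn0]
    norm_num
  rw [hx4] at hn1
  -- `(1 - a) ^ n ≤ exp (-x)`
  have h1 : (1 - a) ^ n ≤ Real.exp (-x) := by
    have h2 : (1 - a) ^ n ≤ Real.exp (-a) ^ n :=
      pow_le_pow_left₀ (by linarith) (Real.one_sub_le_exp_neg a) n
    refine h2.trans (le_of_eq ?_)
    rw [← Real.exp_nat_mul]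
    congr 1
    rw [← han]
    ring
  have h3 : 1 / 2 ≤ (1 - (1 - a) ^ n) ^ n := by
    have h4 : (1 - Real.exp (-x)) ^ n ≤ (1 - (1 - a) ^ n) ^ n := by
      apply pow_le_pow_left₀ _ (by linarith)
      have : Real.exp (-x) ≤ 1 := by
        apply Real.exp_le_one_iff.2
        have : 0 < x := Real.rpow_pos_of_pos hn0 _
        linarith
      linarith
    have h5 : 1 + (n : ℝ) * (-Real.exp (-x)) ≤ (1 + -Real.exp (-x)) ^ n := by
      apply one_add_mul_le_pow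
      have : Real.exp (-x) ≤ 1 := by
        apply Real.exp_le_one_iff.2
        have : 0 < x := Real.rpow_pos_of_pos hn0 _
        linarith
      linarith
    have h6 : (1 + -Real.exp (-x)) ^ n = (1 - Real.exp (-x)) ^ n := by ring_nf
    linarith
  have h7 : (1 + d) ^ n ≤ Real.exp (√n) := by
    have h8 : (1 + d) ^ n ≤ Real.exp d ^ n := by
      apply pow_le_pow_left₀ (by linarith)
      have := Real.add_one_le_exp d
      linarith
    refine h8.trans (le_of_eq ?_)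
    rw [← Real.exp_nat_mul, hdn]
  rw [mul_right_comm]
  apply mul_le_mul_of_nonneg_right _ ha0.le
  rw [div_pow, Real.exp_neg, ← div_eq_mul_inv]
  have h9 : 0 < (1 + d) ^ n := by positivity
  calc 1 / 2 / Real.exp (√n) ≤ 1 / 2 / (1 + d) ^ n :=
        div_le_div_of_nonneg_left (by norm_num) h9 h7
    _ ≤ _ := div_le_div_of_nonneg_right h3 h9.le

end GoodWeightAux

open Classical in
theorem good_weight : ∃ N₀ : ℕ, ∀ n h : ℕ, N₀ ≤ n → 1 ≤ h → ∀ q : ℝ, 1 ≤ q →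
    q ^ (6 * h) = (n : ℝ) ^ (1 / 4 : ℝ) →
    (1 / 2) * (n : ℝ) ^ (-(3 / 4) : ℝ) * Real.exp (-√n) * Ztot (phiH h n) q ≤
      ∑ U : Finset (HVar n),
        if Good n (2 * n - 1) n 1 (chi U) then q ^ grade (phiH h n) U else 0 := by
  obtain ⟨N₀, hN⟩ := GoodWeightAux.numeric
  refine ⟨N₀, fun n h hn hh q hq hqn => ?_⟩
  obtain ⟨hn1, hnum⟩ := hN n hn
  have hq0 : 0 < q := by linarith
  have hnR : (1 : ℝ) ≤ n := by exact_mod_cast hn1
  have hn0 : (0 : ℝ) < n := by linarith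
  rw [GoodWeightAux.GW_eq h n hq0, GoodWeightAux.Ztot_eq h n hq0]
  have ha0 : 0 < (n : ℝ) ^ (-(3 / 4) : ℝ) := Real.rpow_pos_of_pos hn0 _
  have hsuf : ∀ i : ℕ, (n : ℝ) ^ (-(3 / 4) : ℝ) ≤ (n : ℝ) ^ (-(3 / 4) : ℝ) *
      ∏ t : Fin n, (if i ≤ t.val then GoodWeightAux.lw h n q t else 1) ∧
      (n : ℝ) ^ (-(3 / 4) : ℝ) *
        ∏ t : Fin n, (if i ≤ t.val then GoodWeightAux.lw h n q t else 1) ≤
          (n : ℝ) ^ (-(1 / 2) : ℝ) := by
    intro i
    rw [GoodWeightAux.prod_suffix h n hq0, GoodWeightAux.sum_ty_eq, zpow_natCast]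
    have h1 : 3 * h * (n - i) % (6 * h + 1) ≤ 6 * h := by
      have := Nat.mod_lt (3 * h * (n - i)) (show 0 < 6 * h + 1 by omega)
      omega
    have h2 : 1 ≤ q ^ (3 * h * (n - i) % (6 * h + 1)) := one_le_pow₀ hq
    have h3 : q ^ (3 * h * (n - i) % (6 * h + 1)) ≤ (n : ℝ) ^ (1 / 4 : ℝ) := by
      rw [← hqn]
      exact pow_le_pow_right₀ hq h1
    refine ⟨le_mul_of_one_le_right ha0.le h2, ?_⟩
    calc (n : ℝ) ^ (-(3 / 4) : ℝ) * q ^ (3 * h * (n - i) % (6 * h + 1))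
        ≤ (n : ℝ) ^ (-(3 / 4) : ℝ) * (n : ℝ) ^ (1 / 4 : ℝ) :=
          mul_le_mul_of_nonneg_left h3 ha0.le
      _ = (n : ℝ) ^ (-(1 / 2) : ℝ) := by
          rw [← Real.rpow_add hn0]
          norm_num
  have hmain := Vale.P346.H32.GW_one_ge n (2 * n - 1) hn1 (by omega) ((n : ℝ) ^ (-(3 / 4) : ℝ))
    ((n : ℝ) ^ (-(3 / 4) : ℝ)) ((n : ℝ) ^ (-(1 / 2) : ℝ)) ha0
    (Real.rpow_le_one_of_one_le_of_nonpos hnR (by norm_num)) le_rfl
    (Real.rpow_le_rpow_of_exponent_le hnR (by norm_num)) n (GoodWeightAux.lw h n q)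
    (fun t => zpow_pos hq0 _) hsuf
  have hP : 0 ≤ ∏ t, (1 + GoodWeightAux.lw h n q t) ^ (2 * n - 1) :=
    Finset.prod_nonneg fun t _ => by
      have : 0 < GoodWeightAux.lw h n q t := zpow_pos hq0 _
      positivity
  rw [mul_comm _ (∏ t, (1 + GoodWeightAux.lw h n q t) ^ (2 * n - 1))]
  exact (mul_le_mul_of_nonneg_left hnum hP).trans hmain

end Vale.Agent.P346
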