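import Vale.Agent.P346.Core

/-!
# P346, section 5: the good rows of the transfer matrix of the Hankel polynomial are independent
-/

namespace Vale.Agent.P346

open MvPolynomial Finset

universe u v

namespace HankelAux

/-- value of `u` at the natural number `y`, `true` outside the range -/
def getd {m : ℕ} (u : Fin m → Bool) (y : ℕ) : Bool := if h : y < m then u ⟨y, h⟩ else true

/-- set position `y` to `true` -/
def setT {m : ℕ} (u : Fin m → Bool) (y : ℕ) : Fin m → Bool := fun z => if z.1 = y then true else u z

lemma getd_cons_zero {m : ℕ} (b : Bool) (u : Fin m → Bool) :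
    getd (Fin.cons b u : Fin (m + 1) → Bool) 0 = b := by
  simp [getd]

lemma getd_cons_succ {m : ℕ} (b : Bool) (u : Fin m → Bool) (y : ℕ) :
    getd (Fin.cons b u : Fin (m + 1) → Bool) (y + 1) = getd u y := by
  unfold getd
  by_cases h : y < m
  · have h' : y + 1 < m + 1 := by omega
    simp only [h, h', dif_pos]
    exact Fin.cons_succ (α := fun _ => Bool) b u ⟨y, h⟩
  · have h' : ¬ y + 1 < m + 1 := by omega
    simp [h]

lemma setT_cons_zero {m : ℕ} (b : Bool) (u : Fin m → Bool) :
    setT (Fin.cons b u : Fin (m + 1) → Bool) 0 = Fin.cons true u := by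
  funext z
  refine Fin.cases ?_ (fun z => ?_) z
  · simp [setT]
  · simp [setT]

lemma setT_cons_succ {m : ℕ} (b : Bool) (u : Fin m → Bool) (y : ℕ) :
    setT (Fin.cons b u : Fin (m + 1) → Bool) (y + 1) = Fin.cons b (setT u y) := by
  funext z
  refine Fin.cases ?_ (fun z => ?_) z
  · simp [setT]
  · simp [setT]

lemma getd_of_le {m : ℕ} (u : Fin m → Bool) {y : ℕ} (h : m ≤ y) : getd u y = true := by
  unfold getd
  rw [dif_neg (by omega)]

lemma kk_zero : ∀ (m : ℕ) (u : Fin m → Bool), kk m 0 u = 0
  | 0, _ => rfl
  | _ + 1, _ => rfl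

/-- **Lemma A.** -/
theorem lemmaA {M : Type*} [AddCommGroup M] : ∀ (m j : ℕ) (w : (Fin m → Bool) → ℕ → M),
    (∀ u, (∀ i < kk m j u, w u i = 0) → ∀ i, w u i = 0) →
    (∀ u' : Fin m → Bool, ∀ i' < j,
      ∑ i ∈ range m, (if getd u' (i + i') = false then w (setT u' (i + i')) i else 0) = 0) →
    ∀ u i, w u i = 0
  | m, 0, w, H, _ => fun u => H u (by rw [kk_zero]; intro i hi; omega)
  | 0, j + 1, w, H, _ => fun u => H u (by intro i hi; simp [kk] at hi)
  | m + 1, j + 1, w, H, E => by
    -- (i)
    have h1 : ∀ u i, w (Fin.cons false u) i = 0 := by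
      apply lemmaA m j (fun u i => w (Fin.cons false u) i)
      · intro u hu
        apply H (Fin.cons false u)
        simp only [kk, Fin.cons_zero, Fin.tail_cons]
        simpa using hu
      · intro u' i' hi'
        have := E (Fin.cons false u') (i' + 1) (by omega)
        rw [sum_range_succ] at this
        rw [show m + (i' + 1) = (m + i') + 1 by ring, getd_cons_succ,
          getd_of_le u' (show m ≤ m + i' by omega)] at this
        simp only [Bool.true_eq_false, if_false, add_zero] at this
        refine Eq.trans (sum_congr rfl fun i _ => ?_) this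
        rw [show i + (i' + 1) = (i + i') + 1 by ring, getd_cons_succ, setT_cons_succ]
    -- (ii)
    have h2 : ∀ u, w (Fin.cons true u) 0 = 0 := by
      intro u
      have := E (Fin.cons false u) 0 (by omega)
      rw [sum_range_succ'] at this
      simp only [add_zero, getd_cons_succ, setT_cons_succ, getd_cons_zero, setT_cons_zero,
        if_true, h1] at this
      simpa using this
    -- (iii)
    have h3 : ∀ u i, w (Fin.cons true u) (i + 1) = 0 := by
      apply lemmaA m (j + 1) (fun u i => w (Fin.cons true u) (i + 1))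
      · intro u hu i
        apply H (Fin.cons true u)
        simp only [kk, Fin.cons_zero, Fin.tail_cons, if_true]
        intro i hi
        rcases i with _ | i
        · exact h2 u
        · exact hu i (by omega)
      · intro u' i' hi'
        have := E (Fin.cons true u') i' hi'
        rw [sum_range_succ'] at this
        have h0 : (if getd (Fin.cons true u' : Fin (m + 1) → Bool) (0 + i') = false then
            w (setT (Fin.cons true u') (0 + i')) 0 else 0) = 0 := by
          rcases i' with _ | i'
          · simp [getd_cons_zero]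
          · rw [zero_add, setT_cons_succ, h2]; simp
        rw [h0, add_zero] at this
        refine Eq.trans (sum_congr rfl fun i _ => ?_) this
        rw [show i + 1 + i' = (i + i') + 1 by ring, getd_cons_succ, setT_cons_succ]
    intro u i
    have hu : u = Fin.cons (u 0) (Fin.tail u) := (Fin.cons_self_tail u).symm
    rw [hu]
    cases u 0
    · exact h1 _ _
    · rcases i with _ | i
      · exact h2 _
      · exact h3 _ _

variable {K : Type u} [Field K]

/-- the path sum, recursively (block `0` peeled first) -/
noncomputable def Psi (b m : ℕ) : (T : ℕ) → (i : ℕ) → ((Fin T → Fin m → Bool) → K) →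
    (Fin T → Fin m → Bool) → K
  | 0, i, a, U => if i = 0 then a U else 0
  | T + 1, i, a, U => ∑ j ∈ range b, (if getd (U 0) (j + i) = false then
        Psi b m T j (fun V => a (Fin.cons (setT (U 0) (j + i)) V)) (Fin.tail U) else 0)

lemma Psi_zero_fun (b m : ℕ) : ∀ (T i : ℕ) (U : Fin T → Fin m → Bool),
    Psi b m T i (fun _ => (0 : K)) U = 0
  | 0, i, U => by unfold Psi; split_ifs <;> rfl
  | T + 1, i, U => by
    unfold Psi
    apply sum_eq_zero
    intro j _
    rw [Psi_zero_fun b m T]
    split_ifs <;> rfl

/-- injectivity on the good rows -/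
theorem Psi_inj {b m : ℕ} (hb : 1 ≤ b) (hbm : b ≤ m) : ∀ (T j : ℕ) (a : (Fin T → Fin m → Bool) → K),
    j ≤ b → (∀ U, a U ≠ 0 → Good b m T j U) → (∀ i < j, ∀ U, Psi b m T i a U = 0) →
    ∀ U, a U = 0
  | 0, j, a, hj, hG, hP => by
    intro U
    by_contra hne
    have h1 := hG U hne
    have h2 := hP 0 h1 U
    simp only [Psi, if_true] at h2
    exact hne h2
  | T + 1, j, a, hj, hG, hP => by
    set w : (Fin m → Bool) → ℕ → ((Fin T → Fin m → Bool) → K) := fun u i =>
      if i < b then Psi b m T i (fun V => a (Fin.cons u V)) else 0 with hw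
    have hH : ∀ u, (∀ i < kk m j u, w u i = 0) → ∀ V, a (Fin.cons u V) = 0 := by
      intro u hu
      apply Psi_inj hb hbm T (min b (kk m j u)) (fun V => a (Fin.cons u V)) (min_le_left _ _)
      · intro V hV
        have := hG _ hV
        simpa only [Good, Fin.cons_zero, Fin.tail_cons] using this
      · intro i hi V
        have hib : i < b := lt_of_lt_of_le hi (min_le_left _ _)
        have := congrFun (hu i (lt_of_lt_of_le hi (min_le_right _ _))) V
        simpa [hw, hib] using this
    have hw0 : ∀ u i, w u i = 0 := by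
      apply lemmaA m j w
      · intro u hu i
        have h1 := hH u hu
        simp only [hw]
        split_ifs
        · funext V
          have : (fun V => a (Fin.cons u V)) = fun _ => (0 : K) := funext h1
          rw [this, Psi_zero_fun]; rfl
        · rfl
      · intro u' i' hi'
        funext V
        rw [Finset.sum_apply]
        have h1 := hP i' hi' (Fin.cons u' V)
        simp only [Psi, Fin.cons_zero, Fin.tail_cons] at h1
        rw [← Finset.sum_subset (range_subset_range.2 hbm) (f := fun i =>
          (if getd u' (i + i') = false then w (setT u' (i + i')) i else 0) V)]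
        · refine Eq.trans (sum_congr rfl fun i hi => ?_) h1
          have hib : i < b := mem_range.1 hi
          split_ifs
          · simp [hw, hib]
          · rfl
        · intro i _ hi
          have hib : ¬ i < b := fun h => hi (mem_range.2 h)
          simp [hw, hib]
    intro U
    have := hH (U 0) (fun i _ => hw0 _ _) (Fin.tail U)
    rwa [Fin.cons_self_tail] at this

lemma sum_cons {b T : ℕ} (F : (Fin (T + 1) → Fin b) → K) :
    ∑ p : Fin (T + 1) → Fin b, F p =
      ∑ p0 : Fin b, ∑ p : Fin T → Fin b, F (Fin.cons p0 p) := by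
  rw [← (Fin.consEquiv (fun _ : Fin (T + 1) => Fin b)).sum_comp, Fintype.sum_prod_type]
  rfl

/-- the path expansion of `Psi` -/
lemma Psi_path (b m : ℕ) : ∀ (T i : ℕ) (_ : i < b) (a : (Fin T → Fin m → Bool) → K)
    (U : Fin T → Fin m → Bool),
    Psi b m T i a U = ∑ p : Fin (T + 1) → Fin b,
      if (p 0 : ℕ) = i ∧ (p (Fin.last T) : ℕ) = 0 ∧
          ∀ t : Fin T, getd (U t) (p t.succ + p t.castSucc) = false then
        a (fun t => setT (U t) (p t.succ + p t.castSucc))
      else 0
  | 0, i, hi, a, U => by
    rw [sum_cons]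
    simp only [Psi]
    rw [Finset.sum_eq_single (⟨i, hi⟩ : Fin b)]
    · rw [Fintype.sum_unique]
      have hU : (fun t : Fin 0 => setT (U t) ((Fin.cons (⟨i, hi⟩ : Fin b) default :
          Fin (0 + 1) → Fin b) t.succ + (Fin.cons (⟨i, hi⟩ : Fin b) default :
          Fin (0 + 1) → Fin b) t.castSucc)) = U := Subsingleton.elim _ _
      rw [hU]
      by_cases h0 : i = 0
      · subst h0
        simp
      · simp [h0]
    · intro p0 _ hp0
      apply sum_eq_zero
      intro p _
      rw [if_neg]
      rintro ⟨h, _⟩
      exact hp0 (Fin.ext h)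
    · intro h; exact absurd (mem_univ _) h
  | T + 1, i, hi, a, U => by
    rw [sum_cons]
    rw [Finset.sum_eq_single (⟨i, hi⟩ : Fin b)]
    · simp only [Psi]
      have key : ∀ p : Fin (T + 1) → Fin b,
          (if ((Fin.cons (⟨i, hi⟩ : Fin b) p : Fin (T + 1 + 1) → Fin b) 0 : ℕ) = i ∧
              ((Fin.cons (⟨i, hi⟩ : Fin b) p : Fin (T + 1 + 1) → Fin b) (Fin.last (T + 1)) : ℕ) = 0 ∧
              ∀ t : Fin (T + 1), getd (U t)
                ((Fin.cons (⟨i, hi⟩ : Fin b) p : Fin (T + 1 + 1) → Fin b) t.succ +
                (Fin.cons (⟨i, hi⟩ : Fin b) p : Fin (T + 1 + 1) → Fin b) t.castSucc) = false then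
            a (fun t => setT (U t)
                ((Fin.cons (⟨i, hi⟩ : Fin b) p : Fin (T + 1 + 1) → Fin b) t.succ +
                (Fin.cons (⟨i, hi⟩ : Fin b) p : Fin (T + 1 + 1) → Fin b) t.castSucc))
          else 0) =
          ∑ j ∈ range b, (if getd (U 0) (j + i) = false then
            (if (p 0 : ℕ) = j ∧ (p (Fin.last T) : ℕ) = 0 ∧
              ∀ t : Fin T, getd (Fin.tail U t) (p t.succ + p t.castSucc) = false then
              a (Fin.cons (setT (U 0) (j + i))
                (fun t => setT (Fin.tail U t) (p t.succ + p t.castSucc)))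
            else 0) else 0) := by
        intro p
        have e0 : ((Fin.cons (⟨i, hi⟩ : Fin b) p : Fin (T + 1 + 1) → Fin b) 0 : ℕ) = i := by
          simp
        have e1 : ((Fin.cons (⟨i, hi⟩ : Fin b) p : Fin (T + 1 + 1) → Fin b) (Fin.last (T + 1))) =
            p (Fin.last T) := by
          rw [← Fin.succ_last]; exact Fin.cons_succ (α := fun _ => Fin b) _ _ _
        have e2 : ∀ t : Fin (T + 1),
            (Fin.cons (⟨i, hi⟩ : Fin b) p : Fin (T + 1 + 1) → Fin b) t.succ = p t :=
          fun t => Fin.cons_succ (α := fun _ => Fin b) _ _ _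
        have e3 : ∀ t : Fin T,
            (Fin.cons (⟨i, hi⟩ : Fin b) p : Fin (T + 1 + 1) → Fin b) t.succ.castSucc =
              p t.castSucc := by
          intro t
          rw [← Fin.succ_castSucc]; exact Fin.cons_succ (α := fun _ => Fin b) _ _ _
        have e4 : (Fin.cons (⟨i, hi⟩ : Fin b) p : Fin (T + 1 + 1) → Fin b)
            (Fin.castSucc (0 : Fin (T + 1))) = ⟨i, hi⟩ := by
          rw [Fin.castSucc_zero]; exact Fin.cons_zero _ _
        rw [Finset.sum_eq_single ((p 0 : Fin b) : ℕ)]
        · have hfun : (fun t : Fin (T + 1) => setT (U t)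
                ((Fin.cons (⟨i, hi⟩ : Fin b) p : Fin (T + 1 + 1) → Fin b) t.succ +
                (Fin.cons (⟨i, hi⟩ : Fin b) p : Fin (T + 1 + 1) → Fin b) t.castSucc)) =
              Fin.cons (setT (U 0) ((p 0 : ℕ) + i))
                (fun t => setT (Fin.tail U t) (p t.succ + p t.castSucc)) := by
            funext t
            refine Fin.cases ?_ (fun t => ?_) t
            · rw [e2, e4]; simp
            · rw [e2, e3]; simp [Fin.tail]
          rw [hfun]
          have hc : (((Fin.cons (⟨i, hi⟩ : Fin b) p : Fin (T + 1 + 1) → Fin b) 0 : ℕ) = i ∧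
              ((Fin.cons (⟨i, hi⟩ : Fin b) p : Fin (T + 1 + 1) → Fin b) (Fin.last (T + 1)) : ℕ) = 0 ∧
              ∀ t : Fin (T + 1), getd (U t)
                ((Fin.cons (⟨i, hi⟩ : Fin b) p : Fin (T + 1 + 1) → Fin b) t.succ +
                (Fin.cons (⟨i, hi⟩ : Fin b) p : Fin (T + 1 + 1) → Fin b) t.castSucc) = false) ↔
              (getd (U 0) ((p 0 : ℕ) + i) = false ∧ (p (Fin.last T) : ℕ) = 0 ∧
              ∀ t : Fin T, getd (Fin.tail U t) (p t.succ + p t.castSucc) = false) := by
            rw [e1, Fin.forall_fin_succ, e2, e4]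
            constructor
            · rintro ⟨_, h2, h3, h4⟩
              refine ⟨h3, h2, fun t => ?_⟩
              have := h4 t
              rwa [e2, e3] at this
            · rintro ⟨h1, h2, h3⟩
              refine ⟨e0, h2, h1, fun t => ?_⟩
              rw [e2, e3]; exact h3 t
          by_cases hg : getd (U 0) ((p 0 : ℕ) + i) = false
          · rw [if_pos hg]
            apply if_congr _ rfl rfl
            rw [hc]
            simp [hg]
          · rw [if_neg hg, if_neg]
            rw [hc]
            exact fun h => hg h.1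
        · intro j _ hj
          split_ifs with h1 h2
          · exact absurd h2.1.symm hj
          · rfl
          · rfl
        · intro h
          exact absurd (mem_range.2 (p 0).2) h
      rw [Finset.sum_congr rfl (fun p _ => key p), Finset.sum_comm]
      apply sum_congr rfl
      intro j hj
      split_ifs
      · rw [Psi_path b m T j (mem_range.1 hj)]
      · rw [Finset.sum_const_zero]
    · intro p0 _ hp0
      apply sum_eq_zero
      intro p _
      rw [if_neg]
      rintro ⟨h, _⟩
      apply hp0
      apply Fin.ext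
      simpa using h
    · intro h; exact absurd (mem_univ _) h

/-- the set of variables of a family of characteristic functions -/
def unchi {n m : ℕ} (V : Fin n → Fin m → Bool) : Finset (Fin n × Fin m) :=
  Finset.univ.filter (fun z => V z.1 z.2 = true)

lemma unchi_chi {n m : ℕ} (U : Finset (Fin n × Fin m)) : unchi (chi U) = U := by
  ext z
  simp [unchi, chi]

lemma chi_unchi {n m : ℕ} (V : Fin n → Fin m → Bool) : chi (unchi V) = V := by
  funext t y
  simp [unchi, chi]

lemma single_sum_inj {ι : Type*} [DecidableEq ι] {S S' : Finset ι}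
    (h : (∑ i ∈ S, Finsupp.single i 1 : ι →₀ ℕ) = ∑ i ∈ S', Finsupp.single i 1) : S = S' := by
  have key : ∀ (S : Finset ι) (z : ι), (∑ i ∈ S, Finsupp.single i 1 : ι →₀ ℕ) z =
      if z ∈ S then 1 else 0 := by
    intro S z
    rw [Finsupp.finsetSum_apply]
    simp [Finsupp.single_apply]
  ext z
  have := DFunLike.congr_fun h z
  rw [key, key] at this
  by_cases h1 : z ∈ S <;> by_cases h2 : z ∈ S' <;> simp_all

/-- the set of variables of a path -/
def pathSet {n m : ℕ} (y : Fin n → Fin m) : Finset (Fin n × Fin m) :=
  Finset.univ.image (fun t => (t, y t))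

lemma sqCoeff_prod {n m : ℕ} (y : Fin n → Fin m) (S : Finset (Fin n × Fin m)) :
    sqCoeff (∏ t : Fin n, (X (t, y t) : MvPolynomial (Fin n × Fin m) K)) S =
      if S = pathSet y then 1 else 0 := by
  unfold sqCoeff
  have h1 : (∏ t : Fin n, (X (t, y t) : MvPolynomial (Fin n × Fin m) K)) =
      monomial (∑ i ∈ pathSet y, Finsupp.single i 1) 1 := by
    rw [pathSet, Finset.sum_image]
    · rw [monomial_sum_one]
      rfl
    · intro a _ b _ h
      exact (Prod.ext_iff.1 h).1
  rw [h1, coeff_monomial]
  by_cases h : S = pathSet y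
  · rw [if_pos h, if_pos (by rw [h])]
  · rw [if_neg h, if_neg (fun h' => h (single_sum_inj h'.symm))]

lemma hankelPoly_eq (n : ℕ) : hankelPoly K n =
    ∑ p : Fin (n + 1) → Fin n, if (p 0 : ℕ) = 0 ∧ (p (Fin.last n) : ℕ) = 0 then
      ∏ t : Fin n, (X (t, (⟨p t.castSucc + p t.succ, by
        have := (p t.castSucc).2; have := (p t.succ).2; omega⟩ : Fin (2 * n - 1))) :
          MvPolynomial (HVar n) K) else 0 := by
  unfold hankelPoly IMM
  rw [map_sum]
  apply sum_congr rfl
  intro p _
  split_ifs
  · rw [map_prod]
    apply prod_congr rfl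
    intro t _
    rw [rename_X]
    rfl
  · rw [map_zero]

lemma mem_pathSet {n m : ℕ} {y : Fin n → Fin m} {z : Fin n × Fin m} :
    z ∈ pathSet y ↔ y z.1 = z.2 := by
  unfold pathSet
  rw [mem_image]
  constructor
  · rintro ⟨t, _, rfl⟩; rfl
  · intro h; exact ⟨z.1, mem_univ _, Prod.ext rfl h⟩

/-- action of one path on the rows -/
lemma sum_path {n m : ℕ} (a : Finset (Fin n × Fin m) → K) (y : Fin n → Fin m)
    (U' : Finset (Fin n × Fin m)) :
    ∑ U, a U * (if U' ⊆ U then (if U \ U' = pathSet y then (1 : K) else 0) else 0) =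
      if ∀ t : Fin n, getd (chi U' t) (y t) = false then
        a (unchi (fun t => setT (chi U' t) (y t))) else 0 := by
  have hg : ∀ t : Fin n, getd (chi U' t) (y t) = false ↔ (t, y t) ∉ U' := by
    intro t
    simp [getd, chi, (y t).2]
  have hun : unchi (fun t => setT (chi U' t) (y t)) = U' ∪ pathSet y := by
    ext z
    simp only [unchi, mem_filter, mem_univ, true_and, setT, mem_union, mem_pathSet]
    by_cases h : (z.2 : ℕ) = (y z.1 : ℕ)
    · have h' : y z.1 = z.2 := Fin.ext h.symm
      simp [h, h']
    · have h' : ¬ y z.1 = z.2 := fun hh => h (by rw [hh])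
      simp [h, h', chi]
  by_cases hd : ∀ t : Fin n, getd (chi U' t) (y t) = false
  · rw [if_pos hd, hun]
    have hdis : Disjoint U' (pathSet y) := by
      rw [Finset.disjoint_left]
      intro z hz hz'
      rw [mem_pathSet] at hz'
      have := (hg z.1).1 (hd z.1)
      rw [hz'] at this
      exact this hz
    rw [Finset.sum_eq_single (U' ∪ pathSet y)]
    · rw [if_pos subset_union_left, union_sdiff_cancel_left hdis, if_pos rfl, mul_one]
    · intro U _ hU
      split_ifs with h1 h2
      · exfalso
        apply hU
        rw [← h2, union_sdiff_of_subset h1]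
      · rw [mul_zero]
      · rw [mul_zero]
    · intro h; exact absurd (mem_univ _) h
  · rw [if_neg hd]
    apply sum_eq_zero
    intro U _
    split_ifs with h1 h2
    · exfalso
      apply hd
      intro t
      rw [hg]
      intro hmem
      have : (t, y t) ∈ U \ U' := by rw [h2, mem_pathSet]
      exact (mem_sdiff.1 this).2 hmem
    · rw [mul_zero]
    · rw [mul_zero]

lemma sum_transfer {n : ℕ} (hn : 1 ≤ n) (a : Finset (HVar n) → K) (U' : Finset (HVar n)) :
    ∑ U, a U * transfer (hankelPoly K n) U U' =
      Psi n (2 * n - 1) n 0 (fun V => a (unchi V)) (chi U') := by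
  rw [Psi_path n (2 * n - 1) n 0 (by omega)]
  have h1 : ∀ U, transfer (hankelPoly K n) U U' =
      ∑ p : Fin (n + 1) → Fin n, if (p 0 : ℕ) = 0 ∧ (p (Fin.last n) : ℕ) = 0 then
        (if U' ⊆ U then (if U \ U' = pathSet (fun t : Fin n => (⟨p t.castSucc + p t.succ, by
        have := (p t.castSucc).2; have := (p t.succ).2; omega⟩ : Fin (2 * n - 1)))
          then (1 : K) else 0) else 0) else 0 := by
    intro U
    unfold transfer
    rw [Matrix.of_apply]
    split_ifs with hU
    · rw [hankelPoly_eq]
      unfold sqCoeff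
      rw [coeff_sum]
      apply sum_congr rfl
      intro p _
      split_ifs with h2
      · have := sqCoeff_prod (K := K) (fun t : Fin n => (⟨p t.castSucc + p t.succ, by
          have := (p t.castSucc).2; have := (p t.succ).2; omega⟩ : Fin (2 * n - 1))) (U \ U')
        unfold sqCoeff at this
        rw [this]
        split_ifs <;> simp_all
      · have := sqCoeff_prod (K := K) (fun t : Fin n => (⟨p t.castSucc + p t.succ, by
          have := (p t.castSucc).2; have := (p t.succ).2; omega⟩ : Fin (2 * n - 1))) (U \ U')
        unfold sqCoeff at this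
        rw [this]
        split_ifs <;> simp_all
      · exact coeff_zero _
    · symm
      apply sum_eq_zero
      intro p _
      split_ifs <;> rfl
  have h2 : ∑ U, a U * transfer (hankelPoly K n) U U' =
      ∑ p : Fin (n + 1) → Fin n, if (p 0 : ℕ) = 0 ∧ (p (Fin.last n) : ℕ) = 0 then
        ∑ U, a U * (if U' ⊆ U then (if U \ U' = pathSet (fun t : Fin n =>
          (⟨p t.castSucc + p t.succ, by
        have := (p t.castSucc).2; have := (p t.succ).2; omega⟩ : Fin (2 * n - 1)))
          then (1 : K) else 0) else 0) else 0 := by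
    rw [Finset.sum_congr rfl (fun U _ => by rw [h1 U, Finset.mul_sum]), Finset.sum_comm]
    apply sum_congr rfl
    intro p _
    split_ifs
    · rfl
    · simp
  rw [h2]
  apply sum_congr rfl
  intro p _
  rw [sum_path]
  have hcomm : ∀ t : Fin n, (p t.castSucc : ℕ) + p t.succ = p t.succ + p t.castSucc :=
    fun t => Nat.add_comm _ _
  simp only [hcomm]
  by_cases hc : (p 0 : ℕ) = 0 ∧ (p (Fin.last n) : ℕ) = 0
  · rw [if_pos hc]
    apply if_congr _ rfl rfl
    exact ⟨fun h => ⟨hc.1, hc.2, h⟩, fun h => h.2.2⟩
  · rw [if_neg hc, if_neg]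
    rintro ⟨h1, h2, _⟩
    exact hc ⟨h1, h2⟩

end HankelAux

open HankelAux in
/-- **Claim 1**: the good rows of the transfer matrix of the Hankel polynomial are linearly
independent. -/
theorem hankel_rows {K : Type u} [Field K] {n : ℕ} (hn : 1 ≤ n) (a : Finset (HVar n) → K)
    (ha : ∀ U, a U ≠ 0 → Good n (2 * n - 1) n 1 (chi U))
    (h0 : ∀ U', ∑ U, a U * transfer (hankelPoly K n) U U' = 0) : a = 0 := by
  have key := Psi_inj (K := K) (b := n) (m := 2 * n - 1) hn (by omega) n 1
    (fun V => a (unchi V)) hn ?_ ?_
  · funext U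
    have := key (chi U)
    rwa [unchi_chi] at this
  · intro V hV
    have := ha _ hV
    rwa [chi_unchi] at this
  · intro i hi V
    have hi0 : i = 0 := by omega
    subst hi0
    have := h0 (unchi V)
    rwa [sum_transfer hn, chi_unchi] at this

end Vale.Agent.P346
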