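import Vale.Agent.P346.Core

/-!
# P346: basic facts on `IMM`
-/

namespace Vale.Agent.P346

open MvPolynomial

universe u v

section Facts
variable {K : Type u} [Field K]

theorem IMM_isHomogeneous (w d : ℕ) : (IMM K w d).IsHomogeneous d := by
  unfold IMM
  apply MvPolynomial.IsHomogeneous.sum
  intro p _
  split_ifs
  · have := MvPolynomial.IsHomogeneous.prod (R := K) Finset.univ
      (fun t : Fin d => (X (t, p t.castSucc, p t.succ) : MvPolynomial (Fin d × Fin w × Fin w) K))
      (fun _ => 1) (fun t _ => MvPolynomial.isHomogeneous_X K _)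
    simpa using this
  · exact MvPolynomial.isHomogeneous_zero _ _ _

theorem IMM_ne_zero {w d : ℕ} (hw : 1 ≤ w) : IMM K w d ≠ 0 := by
  intro h
  -- evaluate at the point where exactly the entries `(1,1)` are `1`
  have h1 := congrArg (MvPolynomial.eval fun v : Fin d × Fin w × Fin w =>
    if (v.2.1 : ℕ) = 0 ∧ (v.2.2 : ℕ) = 0 then (1 : K) else 0) h
  rw [map_zero, IMM, map_sum] at h1
  have h2 : ∀ p : Fin (d + 1) → Fin w,
      (MvPolynomial.eval fun v : Fin d × Fin w × Fin w =>
        if (v.2.1 : ℕ) = 0 ∧ (v.2.2 : ℕ) = 0 then (1 : K) else 0)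
        (if (p 0 : ℕ) = 0 ∧ (p (Fin.last d) : ℕ) = 0 then
          ∏ t : Fin d, (X (t, p t.castSucc, p t.succ) : MvPolynomial (Fin d × Fin w × Fin w) K)
        else 0) = if p = (fun _ => ⟨0, hw⟩) then 1 else 0 := by
    intro p
    by_cases hp : p = fun _ => ⟨0, hw⟩
    · subst hp
      simp
    · rw [if_neg hp]
      split_ifs with h0
      · rw [map_prod]
        -- some vertex of the path is nonzero
        obtain ⟨t, ht⟩ : ∃ t : Fin (d + 1), (p t : ℕ) ≠ 0 := by
          by_contra hcon
          simp only [not_exists, not_not] at hcon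
          exact hp (funext fun t => Fin.ext (hcon t))
        obtain ⟨s, hs⟩ : ∃ s : Fin d, s.succ = t := by
          refine ⟨t.pred ?_, Fin.succ_pred _ _⟩
          rintro rfl
          exact ht h0.1
        apply Finset.prod_eq_zero (Finset.mem_univ s)
        rw [eval_X, if_neg]
        rintro ⟨_, h3⟩
        exact ht (by simpa [hs] using h3)
      · exact map_zero _
  rw [Finset.sum_congr rfl fun p _ => h2 p] at h1
  simp at h1

/-- The entries of a product of matrices as a sum over paths. -/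
theorem prod_ofFn_apply {R : Type*} [CommSemiring R] {ι : Type*} [Fintype ι] [DecidableEq ι]
    (d : ℕ) (M : Fin d → Matrix ι ι R) (a b : ι) :
    (List.ofFn M).prod a b = ∑ p : Fin (d + 1) → ι,
      if p 0 = a ∧ p (Fin.last d) = b then ∏ t : Fin d, M t (p t.castSucc) (p t.succ) else 0 := by
  induction d generalizing a with
  | zero =>
    rw [List.ofFn_zero, List.prod_nil, Matrix.one_apply]
    rw [Fintype.sum_eq_single (fun _ => a)]
    · simp
    · intro p hp
      rw [if_neg]
      rintro ⟨h0, _⟩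
      apply hp
      funext t
      rw [Fin.fin_one_eq_zero t, h0]
  | succ d ih =>
    rw [List.ofFn_succ, List.prod_cons, Matrix.mul_apply]
    have e : (∑ p : Fin (d + 1 + 1) → ι,
        if p 0 = a ∧ p (Fin.last (d + 1)) = b then
          ∏ t : Fin (d + 1), M t (p t.castSucc) (p t.succ) else 0) =
        ∑ x : ι × (Fin (d + 1) → ι),
          if (Fin.cons x.1 x.2 : Fin (d + 1 + 1) → ι) 0 = a ∧
            (Fin.cons x.1 x.2 : Fin (d + 1 + 1) → ι) (Fin.last (d + 1)) = b then
          ∏ t : Fin (d + 1), M t ((Fin.cons x.1 x.2 : Fin (d + 1 + 1) → ι) t.castSucc)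
            ((Fin.cons x.1 x.2 : Fin (d + 1 + 1) → ι) t.succ) else 0 :=
      (Fintype.sum_equiv (Fin.consEquiv fun _ : Fin (d + 1 + 1) => ι) _ _ fun x => rfl).symm
    have h1 : ∀ q : Fin (d + 1) → ι,
        (if (Fin.cons a q : Fin (d + 1 + 1) → ι) 0 = a ∧
          (Fin.cons a q : Fin (d + 1 + 1) → ι) (Fin.last (d + 1)) = b then
        ∏ t : Fin (d + 1), M t ((Fin.cons a q : Fin (d + 1 + 1) → ι) t.castSucc)
          ((Fin.cons a q : Fin (d + 1 + 1) → ι) t.succ) else 0) =
        ∑ j, M 0 a j * (if q 0 = j ∧ q (Fin.last d) = b then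
          ∏ t : Fin d, M t.succ (q t.castSucc) (q t.succ) else 0) := by
      intro q
      rw [Fintype.sum_eq_single (q 0)]
      · have h2 : (Fin.cons a q : Fin (d + 1 + 1) → ι) (Fin.last (d + 1)) = q (Fin.last d) := by
          rw [← Fin.succ_last, Fin.cons_succ]
        rw [h2, Fin.cons_zero, Fin.prod_univ_succ]
        simp only [Fin.castSucc_zero, Fin.cons_zero, Fin.cons_succ, true_and,
          ← Fin.succ_castSucc]
        rw [mul_ite, mul_zero]
      · intro j hj
        rw [if_neg (by rintro ⟨h, _⟩; exact hj h.symm), mul_zero]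
    have h3 : ∀ c, c ≠ a → (∑ q : Fin (d + 1) → ι,
          if (Fin.cons c q : Fin (d + 1 + 1) → ι) 0 = a ∧
            (Fin.cons c q : Fin (d + 1 + 1) → ι) (Fin.last (d + 1)) = b then
          ∏ t : Fin (d + 1), M t ((Fin.cons c q : Fin (d + 1 + 1) → ι) t.castSucc)
            ((Fin.cons c q : Fin (d + 1 + 1) → ι) t.succ) else 0) = 0 := by
      intro c hc
      apply Finset.sum_eq_zero
      intro q _
      rw [if_neg]
      rintro ⟨h, _⟩
      exact hc (by simpa using h)
    rw [e, Fintype.sum_prod_type]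
    refine Eq.trans ?_ (Fintype.sum_eq_single a h3).symm
    rw [Finset.sum_congr rfl fun q _ => h1 q, Finset.sum_comm]
    exact Finset.sum_congr rfl fun j _ => by rw [ih, Finset.mul_sum]

/-- sanity -/
theorem IMM_eq_matrix_prod {w d : ℕ} (hw : 1 ≤ w) :
    IMM K w d = (List.ofFn fun t : Fin d =>
      (Matrix.of fun i j : Fin w => (X (t, i, j) : MvPolynomial (Fin d × Fin w × Fin w) K))).prod
      ⟨0, hw⟩ ⟨0, hw⟩ := by
  rw [prod_ofFn_apply, IMM]
  refine Finset.sum_congr rfl fun p _ => ?_
  have : ((p 0 : ℕ) = 0 ∧ (p (Fin.last d) : ℕ) = 0) ↔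
      (p 0 = ⟨0, hw⟩ ∧ p (Fin.last d) = ⟨0, hw⟩) := by
    rw [Fin.ext_iff, Fin.ext_iff]
  simp only [this, Matrix.of_apply]

end Facts

end Vale.Agent.P346
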