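import Vale.Agent.P346.Core

/-!
# P346: the rank measure (sections 2 and 3 of the proof)

The matrices `transfer P` are multiplicative and additive in `P`; the measure `mu` is subadditive;
a product one of whose factors only has monomials of grades in a finite set `E` has small measure;
hence so has every term of the normal form (`mu_isTerm_le`).
-/

namespace Vale.Agent.P346

open MvPolynomial Finset

universe u v

namespace MeasureAux

section Matrices

variable {K : Type u} [Field K] {ι : Type v} [DecidableEq ι]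

/-- Exponent vector of the squarefree monomial of a finite set of variables. -/
noncomputable def sqf (U : Finset ι) : ι →₀ ℕ := ∑ i ∈ U, Finsupp.single i 1

theorem sqf_apply (U : Finset ι) (i : ι) : sqf U i = if i ∈ U then 1 else 0 := by
  rw [sqf, Finsupp.finsetSum_apply]
  simp [Finsupp.single_apply]

theorem mem_support_sqf (U : Finset ι) (i : ι) : i ∈ (sqf U).support ↔ i ∈ U := by
  rw [Finsupp.mem_support_iff, sqf_apply]
  by_cases h : i ∈ U <;> simp [h]

theorem sqf_inj {U V : Finset ι} (h : sqf U = sqf V) : U = V := by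
  ext i
  rw [← mem_support_sqf U, ← mem_support_sqf V, h]

theorem sqf_empty : sqf (∅ : Finset ι) = 0 := by simp [sqf]

theorem sqf_erase {U : Finset ι} {i : ι} (hi : i ∈ U) :
    sqf U - Finsupp.single i 1 = sqf (U.erase i) := by
  ext j
  rw [Finsupp.tsub_apply, sqf_apply, sqf_apply, Finsupp.single_apply]
  by_cases h : i = j
  · subst h; simp [hi]
  · have : (j ∈ U.erase i) ↔ j ∈ U := by simp [Ne.symm h]
    simp [h, this]

theorem weight_sqf (φ : ι → ℤ) (U : Finset ι) : Finsupp.weight φ (sqf U) = grade φ U := by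
  rw [sqf, map_sum, grade]
  apply Finset.sum_congr rfl
  intro i _
  rw [Finsupp.weight_single, one_smul]

theorem grade_sdiff (φ : ι → ℤ) {U W : Finset ι} (h : W ⊆ U) :
    grade φ (U \ W) = grade φ U - grade φ W := by
  unfold grade
  rw [Finset.sum_sdiff_eq_sub h]

theorem transfer_apply (P : MvPolynomial ι K) (U W : Finset ι) :
    transfer P U W = if W ⊆ U then P.coeff (sqf (U \ W)) else 0 := rfl

theorem transfer_zero : transfer (0 : MvPolynomial ι K) = 0 := by
  ext U W
  simp [transfer_apply]

theorem transfer_C_mul (a : K) (P : MvPolynomial ι K) : transfer (C a * P) = a • transfer P := by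
  ext U W
  simp only [Matrix.smul_apply, transfer_apply, coeff_C_mul]
  split_ifs <;> simp

theorem transfer_one : transfer (1 : MvPolynomial ι K) = 1 := by
  ext U W
  rw [transfer_apply, MvPolynomial.coeff_one, Matrix.one_apply]
  by_cases he : U = W
  · subst he
    simp [sqf_empty]
  · rw [if_neg he]
    by_cases hW : W ⊆ U
    · rw [if_pos hW, if_neg]
      intro h0
      apply he
      symm
      apply Finset.Subset.antisymm hW
      rw [← sdiff_eq_empty_iff_subset]
      apply sqf_inj
      rw [← h0, sqf_empty]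
    · rw [if_neg hW]

theorem transfer_X_mul_apply (i : ι) (Q : MvPolynomial ι K) (U W : Finset ι) :
    transfer (X i * Q) U W = if i ∈ U then transfer Q (U.erase i) W else 0 := by
  simp only [transfer_apply, coeff_X_mul', mem_support_sqf]
  by_cases hU : i ∈ U
  · simp only [hU, if_true]
    by_cases hW : W ⊆ U
    · simp only [hW, if_true]
      by_cases hi : i ∈ W
      · have h1 : ¬ W ⊆ U.erase i := fun h => by
          have := h hi
          simp at this
        have h2 : i ∉ U \ W := by simp [hi]
        simp [h1, h2]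
      · have h1 : W ⊆ U.erase i := fun j hj => by
          rw [mem_erase]
          exact ⟨fun h => hi (h ▸ hj), hW hj⟩
        have h2 : i ∈ U \ W := by simp [hi, hU]
        have h3 : (U \ W).erase i = U.erase i \ W := by
          ext j
          simp only [mem_erase, mem_sdiff]
          tauto
        rw [if_pos h2, if_pos h1, sqf_erase h2, h3]
    · have h1 : ¬ W ⊆ U.erase i := fun h => hW (h.trans (erase_subset _ _))
      simp [hW, h1]
  · have h2 : i ∉ U \ W := fun h => hU (mem_sdiff.mp h).1
    simp [hU, h2]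

theorem transfer_X_apply (i : ι) (U W : Finset ι) :
    transfer (X i : MvPolynomial ι K) U W = if i ∈ U ∧ W = U.erase i then 1 else 0 := by
  have h := transfer_X_mul_apply (K := K) i 1 U W
  rw [mul_one, transfer_one] at h
  rw [h, Matrix.one_apply]
  by_cases hU : i ∈ U
  · simp [hU, eq_comm]
  · simp [hU]

variable [Fintype ι]

theorem transfer_X_mul (i : ι) (Q : MvPolynomial ι K) :
    transfer (X i * Q) = transfer (X i) * transfer Q := by
  ext U W
  rw [Matrix.mul_apply, transfer_X_mul_apply]
  by_cases hU : i ∈ U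
  · rw [if_pos hU, Finset.sum_eq_single (U.erase i)]
    · rw [transfer_X_apply]; simp [hU]
    · intro V _ hV
      rw [transfer_X_apply]; simp [hV]
    · intro h; exact absurd (mem_univ _) h
  · rw [if_neg hU, Finset.sum_eq_zero]
    intro V _
    rw [transfer_X_apply]; simp [hU]

end Matrices

end MeasureAux

open MeasureAux

set_option linter.unusedSectionVars false

section Measure

variable {K : Type u} [Field K] {ι : Type v} [DecidableEq ι] [Fintype ι]

omit [Fintype ι] in
theorem transfer_add' (P Q : MvPolynomial ι K) : transfer (P + Q) = transfer P + transfer Q := by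
  ext U W
  simp only [Matrix.add_apply, transfer_apply, coeff_add]
  split_ifs <;> simp

theorem transfer_add (P Q : MvPolynomial ι K) : transfer (P + Q) = transfer P + transfer Q :=
  transfer_add' P Q

/-- The matrix of a product is the product of the matrices. -/
theorem transfer_mul (P Q : MvPolynomial ι K) : transfer (P * Q) = transfer P * transfer Q := by
  induction P using MvPolynomial.induction_on generalizing Q with
  | C a =>
    have h := transfer_C_mul (ι := ι) a 1
    rw [mul_one, transfer_one] at h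
    rw [transfer_C_mul, h, smul_mul_assoc, one_mul]
  | add P1 P2 h1 h2 =>
    rw [add_mul, transfer_add, h1, h2, transfer_add, add_mul]
  | mul_X P i h =>
    rw [mul_assoc, h, transfer_X_mul, h (X i), mul_assoc]

end Measure

namespace MeasureAux

section Blocks

variable {K : Type u} [Field K] {ι : Type v} [DecidableEq ι] [Fintype ι]

theorem rank_add_le' {m n : Type*} [Fintype m] [Fintype n] (A B : Matrix m n K) :
    (A + B).rank ≤ A.rank + B.rank := by
  classical
  rw [Matrix.rank, Matrix.rank, Matrix.rank, Matrix.mulVecLin_add]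
  calc Module.finrank K (LinearMap.range (A.mulVecLin + B.mulVecLin))
      ≤ Module.finrank K
          ((LinearMap.range A.mulVecLin ⊔ LinearMap.range B.mulVecLin : Submodule K (m → K))) := by
        apply Submodule.finrank_mono
        rintro _ ⟨x, rfl⟩
        exact Submodule.add_mem_sup ⟨x, rfl⟩ ⟨x, rfl⟩
    _ ≤ _ := Submodule.finrank_add_le_finrank_add_finrank _ _

theorem blockRank_add_le (φ : ι → ℤ) (P Q : MvPolynomial ι K) (Φ g : ℤ) :
    blockRank φ Φ g (P + Q) ≤ blockRank φ Φ g P + blockRank φ Φ g Q := by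
  unfold blockRank
  refine le_trans (le_of_eq ?_) (rank_add_le' _ _)
  congr 1
  ext U W
  simp [transfer_add]

theorem blockRank_zero (φ : ι → ℤ) (Φ g : ℤ) : blockRank φ Φ g (0 : MvPolynomial ι K) = 0 := by
  unfold blockRank
  have : (Matrix.of fun (U : {U : Finset ι // grade φ U = g})
    (U' : {U : Finset ι // grade φ U = g - Φ}) => transfer (0 : MvPolynomial ι K) U.1 U'.1) = 0 := by
    ext U W
    simp [transfer_zero]
  rw [this, Matrix.rank_zero]

theorem mu_zero (φ : ι → ℤ) (Φ : ℤ) (q : ℝ) : mu φ Φ q (0 : MvPolynomial ι K) = 0 := by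
  simp [mu, blockRank_zero]

theorem mu_add_le (φ : ι → ℤ) (Φ : ℤ) {q : ℝ} (hq : 0 < q) (P Q : MvPolynomial ι K) :
    mu φ Φ q (P + Q) ≤ mu φ Φ q P + mu φ Φ q Q := by
  unfold mu
  rw [← Finset.sum_add_distrib]
  apply Finset.sum_le_sum
  intro g _
  rw [← mul_add]
  apply mul_le_mul_of_nonneg_left _ (zpow_pos hq _).le
  exact_mod_cast blockRank_add_le φ P Q Φ g

/-- entries of the matrix vanish unless the grade difference lies in `E` -/
theorem transfer_eq_zero {φ : ι → ℤ} {A : MvPolynomial ι K} {E : Finset ℤ}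
    (hA : ∀ m ∈ A.support, Finsupp.weight φ m ∈ E)
    {U W : Finset ι} (h : grade φ U - grade φ W ∉ E) : transfer A U W = 0 := by
  rw [transfer_apply]
  by_cases hW : W ⊆ U
  · rw [if_pos hW]
    by_contra hne
    have := hA _ (mem_support_iff.mpr hne)
    rw [weight_sqf, grade_sdiff φ hW] at this
    exact h this
  · rw [if_neg hW]

/-- the matrix product restricted to two index sets has rank at most the number of
intermediate indices that matter -/
theorem rank_le_of_middle (φ : ι → ℤ) (A B : MvPolynomial ι K) (g Φ : ℤ) (p : Finset ι → Prop)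
    [DecidablePred p]
    (h : ∀ U V : Finset ι, grade φ U = g → grade φ V = g - Φ → ∀ W, ¬ p W →
      transfer A U W * transfer B W V = 0) :
    blockRank φ Φ g (A * B) ≤ (univ.filter p).card := by
  rw [← Fintype.card_subtype]
  have h1 : (Matrix.of fun (U : {U : Finset ι // grade φ U = g})
      (U' : {U : Finset ι // grade φ U = g - Φ}) => transfer (A * B) U.1 U'.1) =
      (Matrix.of fun (U : {U : Finset ι // grade φ U = g}) (W : {W : Finset ι // p W}) =>
        transfer A U.1 W.1) *
      (Matrix.of fun (W : {W : Finset ι // p W}) (V : {U : Finset ι // grade φ U = g - Φ}) =>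
        transfer B W.1 V.1) := by
    ext U V
    simp only [transfer_mul, Matrix.of_apply, Matrix.mul_apply]
    rw [← Finset.sum_subtype (univ.filter p) (p := p) (by intro x; simp)
      (fun W => transfer A U.val W * transfer B W V.val)]
    symm
    apply Finset.sum_subset (Finset.filter_subset _ _)
    intro W _ hW
    apply h U V U.2 V.2
    intro hp
    exact hW (mem_filter.mpr ⟨mem_univ _, hp⟩)
  unfold blockRank
  rw [h1]
  exact (Matrix.rank_mul_le_left _ _).trans (Matrix.rank_le_card_width _)

theorem card_exists_le (φ : ι → ℤ) (E : Finset ℤ) (f : ℤ → ℤ) :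
    (univ.filter fun W : Finset ι => ∃ a ∈ E, grade φ W = f a).card ≤
      ∑ a ∈ E, (univ.filter fun W : Finset ι => grade φ W = f a).card := by
  classical
  calc (univ.filter fun W : Finset ι => ∃ a ∈ E, grade φ W = f a).card
      ≤ (E.biUnion fun a => univ.filter fun W : Finset ι => grade φ W = f a).card := by
        apply Finset.card_le_card
        intro W hW
        simp only [mem_filter, mem_univ, true_and, mem_biUnion] at hW ⊢
        exact hW
    _ ≤ _ := Finset.card_biUnion_le

/-- summing `q^g` times the number of sets of grade `g - a` over any finite set of `g` -/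
theorem sum_grade_le (φ : ι → ℤ) {q : ℝ} (hq : 0 < q) (S : Finset ℤ) (a : ℤ) :
    ∑ g ∈ S, q ^ g * ((univ.filter fun W : Finset ι => grade φ W = g - a).card : ℝ) ≤
      q ^ a * Ztot φ q := by
  classical
  have h1 : ∀ g ∈ S, q ^ g * ((univ.filter fun W : Finset ι => grade φ W = g - a).card : ℝ) =
      q ^ a * ∑ W : Finset ι, if grade φ W = g - a then q ^ grade φ W else 0 := by
    intro g _
    rw [← Finset.sum_filter, Finset.sum_congr rfl
      (g := fun _ => q ^ (g - a)) (by intro W hW; rw [(mem_filter.mp hW).2]),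
      Finset.sum_const, nsmul_eq_mul, mul_left_comm, ← zpow_add₀ hq.ne']
    rw [mul_comm]
    congr 2
    ring
  rw [Finset.sum_congr rfl h1, ← Finset.mul_sum, Finset.sum_comm]
  apply mul_le_mul_of_nonneg_left _ (zpow_pos hq _).le
  unfold Ztot
  apply Finset.sum_le_sum
  intro W _
  have h2 : ∀ g ∈ S, (if grade φ W = g - a then q ^ grade φ W else 0) =
      if g = grade φ W + a then q ^ grade φ W else 0 := by
    intro g _
    congr 1
    apply propext
    constructor <;> intro h <;> omega
  rw [Finset.sum_congr rfl h2, Finset.sum_ite_eq']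
  split_ifs
  · exact le_refl _
  · exact (zpow_pos hq _).le

theorem sum_levels_le (φ : ι → ℤ) {q : ℝ} (hq : 0 < q) (S E : Finset ℤ) (f : ℤ → ℤ)
    (r : ℤ → ℕ)
    (hr : ∀ g ∈ S, r g ≤ ∑ a ∈ E, (univ.filter fun W : Finset ι => grade φ W = g - f a).card) :
    ∑ g ∈ S, q ^ g * (r g : ℝ) ≤ (∑ a ∈ E, q ^ f a) * Ztot φ q := by
  calc ∑ g ∈ S, q ^ g * (r g : ℝ)
      ≤ ∑ g ∈ S, ∑ a ∈ E,
          q ^ g * ((univ.filter fun W : Finset ι => grade φ W = g - f a).card : ℝ) := by
        apply Finset.sum_le_sum
        intro g hg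
        rw [← Finset.mul_sum]
        apply mul_le_mul_of_nonneg_left _ (zpow_pos hq _).le
        exact_mod_cast hr g hg
    _ = ∑ a ∈ E, ∑ g ∈ S,
          q ^ g * ((univ.filter fun W : Finset ι => grade φ W = g - f a).card : ℝ) :=
        Finset.sum_comm
    _ ≤ ∑ a ∈ E, q ^ f a * Ztot φ q := by
        apply Finset.sum_le_sum
        intro a _
        exact sum_grade_le φ hq S (f a)
    _ = _ := by rw [Finset.sum_mul]

end Blocks

end MeasureAux

section Measure

variable {K : Type u} [Field K] {ι : Type v} [DecidableEq ι] [Fintype ι]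

theorem mu_sum_le {α : Type*} (s : Finset α) (F : α → MvPolynomial ι K) (φ : ι → ℤ) (Φ : ℤ)
    {q : ℝ} (hq : 0 < q) : mu φ Φ q (∑ a ∈ s, F a) ≤ ∑ a ∈ s, mu φ Φ q (F a) := by
  classical
  induction s using Finset.induction_on with
  | empty => simp [mu_zero]
  | insert a s ha ih =>
    rw [Finset.sum_insert ha, Finset.sum_insert ha]
    exact (mu_add_le φ Φ hq _ _).trans (by gcongr)

/-- (2a), first half -/
theorem mu_mul_le_left (A B : MvPolynomial ι K) (φ : ι → ℤ) (Φ : ℤ) {q : ℝ} (hq : 0 < q)
    (E : Finset ℤ) (hE : ∀ m ∈ A.support, Finsupp.weight φ m ∈ E) :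
    mu φ Φ q (A * B) ≤ (∑ a ∈ E, q ^ a) * Ztot φ q := by
  classical
  unfold mu
  apply sum_levels_le φ hq _ E (fun a => a) (fun g => blockRank φ Φ g (A * B))
  intro g _
  refine le_trans ?_ (card_exists_le φ E (fun a => g - a))
  apply rank_le_of_middle
  intro U V hU _ W hW
  rw [transfer_eq_zero hE, zero_mul]
  intro hmem
  apply hW
  exact ⟨_, hmem, by rw [hU]; ring⟩

/-- (2a), second half -/
theorem mu_mul_le_right (A B : MvPolynomial ι K) (φ : ι → ℤ) (Φ : ℤ) {q : ℝ} (hq : 0 < q)
    (E : Finset ℤ) (hE : ∀ m ∈ B.support, Finsupp.weight φ m ∈ E) :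
    mu φ Φ q (A * B) ≤ (∑ b ∈ E, q ^ (Φ - b)) * Ztot φ q := by
  classical
  unfold mu
  apply sum_levels_le φ hq _ E (fun b => Φ - b) (fun g => blockRank φ Φ g (A * B))
  intro g _
  refine le_trans ?_ (card_exists_le φ E (fun b => g - (Φ - b)))
  apply rank_le_of_middle
  intro U V _ hV W hW
  rw [transfer_eq_zero (A := B) hE, mul_zero]
  intro hmem
  apply hW
  exact ⟨_, hmem, by rw [hV]; ring⟩

end Measure

namespace MeasureAux

section Split

variable {K : Type u} [Field K] {ι : Type v} [DecidableEq ι] [Fintype ι]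

/-- the part of a polynomial formed by the monomials with a given property -/
noncomputable def part (p : (ι →₀ ℕ) → Prop) [DecidablePred p] (G : MvPolynomial ι K) :
    MvPolynomial ι K := ∑ m ∈ G.support.filter p, monomial m (G.coeff m)

theorem part_add_part (p : (ι →₀ ℕ) → Prop) [DecidablePred p] (G : MvPolynomial ι K) :
    part p G + part (fun m => ¬ p m) G = G := by
  unfold part
  rw [Finset.sum_filter_add_sum_filter_not]
  exact MvPolynomial.support_sum_monomial_coeff G

theorem support_part (p : (ι →₀ ℕ) → Prop) [DecidablePred p] (G : MvPolynomial ι K)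
    {m : ι →₀ ℕ} (hm : m ∈ (part p G).support) : m ∈ G.support ∧ p m := by
  classical
  have h1 := MvPolynomial.support_sum (s := G.support.filter p)
    (f := fun m => monomial m (G.coeff m)) hm
  rw [Finset.mem_biUnion] at h1
  obtain ⟨a, ha, hma⟩ := h1
  have h2 := MvPolynomial.support_monomial_subset hma
  rw [Finset.mem_singleton] at h2
  subst h2
  exact Finset.mem_filter.mp ha

/-- properties closed under addition of exponents pass to products -/
theorem support_prod {α : Type*} (S : Finset α) (G : α → MvPolynomial ι K)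
    (f : (ι →₀ ℕ) → ℤ) (hf0 : f 0 = 0) (hf : ∀ a b, f (a + b) = f a + f b) (c : α → ℤ)
    (hG : ∀ j ∈ S, ∀ m ∈ (G j).support, f m ≤ c j) :
    ∀ m ∈ (∏ j ∈ S, G j).support, f m ≤ ∑ j ∈ S, c j := by
  classical
  induction S using Finset.induction_on with
  | empty =>
    intro m hm
    rw [Finset.prod_empty, MvPolynomial.mem_support_iff, MvPolynomial.coeff_one] at hm
    have : (0 : ι →₀ ℕ) = m := by
      by_contra h
      rw [if_neg h] at hm
      exact hm rfl
    rw [← this, hf0, Finset.sum_empty]
  | insert a S ha ih =>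
    intro m hm
    rw [Finset.prod_insert ha] at hm
    have h1 := MvPolynomial.support_mul _ _ hm
    rw [Finset.mem_add] at h1
    obtain ⟨x, hx, y, hy, rfl⟩ := h1
    rw [hf, Finset.sum_insert ha]
    exact add_le_add (hG a (Finset.mem_insert_self a S) x hx)
      (ih (fun j hj => hG j (Finset.mem_insert_of_mem hj)) y hy)

end Split

section LemmaB

variable {K : Type u} [Field K] {ι : Type v} [DecidableEq ι] [Fintype ι]

/-- for the two-valued grading: the grade of a monomial of degree `D` with `c` variables of the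
second type is `3hD - (6h+1)c` -/
theorem weight_eq {φ : ι → ℤ} {h : ℕ} (hφ : ∀ i, φ i = 3 * h ∨ φ i = -(3 * h + 1))
    (m : ι →₀ ℕ) : ∃ c : ℕ, c ≤ m.degree ∧
      Finsupp.weight φ m = 3 * h * (m.degree : ℤ) - (6 * h + 1) * c := by
  classical
  refine ⟨∑ i, if φ i = 3 * h then 0 else m i, ?_, ?_⟩
  · rw [Finsupp.degree_eq_sum]
    apply Finset.sum_le_sum
    intro i _
    split_ifs <;> simp
  · rw [Finsupp.weight_eq_sum, Finsupp.degree_eq_sum]
    push_cast
    rw [Finset.mul_sum, Finset.mul_sum, ← Finset.sum_sub_distrib]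
    apply Finset.sum_congr rfl
    intro i _
    by_cases h1 : φ i = 3 * h
    · rw [if_pos h1, h1, nsmul_eq_mul]
      push_cast
      ring
    · have h2 := (hφ i).resolve_left h1
      rw [if_neg h1, h2, nsmul_eq_mul]
      ring

/-- (3a): every monomial of degree `1` or in `[2h, 4h)` has grade of absolute value `≥ h` -/
theorem weight_cases {φ : ι → ℤ} {h : ℕ} (hh : 1 ≤ h)
    (hφ : ∀ i, φ i = 3 * h ∨ φ i = -(3 * h + 1))
    (m : ι →₀ ℕ) (hm : m.degree = 1 ∨ (2 * h ≤ m.degree ∧ m.degree < 4 * h)) :
    Finsupp.weight φ m ≤ -(h : ℤ) ∨ (h : ℤ) ≤ Finsupp.weight φ m := by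
  obtain ⟨c, hc, hw⟩ := weight_eq hφ m
  rw [hw]
  obtain ⟨D, hD⟩ : ∃ D : ℕ, m.degree = D := ⟨_, rfl⟩
  rw [hD] at hc hm ⊢
  rcases hm with hm | ⟨hm1, hm2⟩
  · subst hm
    have : c = 0 ∨ c = 1 := by omega
    rcases this with rfl | rfl
    · right; push_cast; nlinarith
    · left; push_cast; nlinarith
  · obtain ⟨x, hx⟩ : ∃ x : ℕ, D = x + c := ⟨D - c, by omega⟩
    subst hx
    push_cast
    by_cases hxy : x ≤ c
    · left
      have h1 : h ≤ c := by omega
      have h2 : (0 : ℤ) ≤ 3 * h * (c - x) := by
        apply mul_nonneg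
        · positivity
        · have : (x : ℤ) ≤ c := by exact_mod_cast hxy
          linarith
      have h3 : (h : ℤ) ≤ c := by exact_mod_cast h1
      nlinarith
    · right
      have h1 : c + 1 ≤ x := by omega
      have h2 : c ≤ 2 * h - 1 := by omega
      have h3 : (c : ℤ) + 1 ≤ x := by exact_mod_cast h1
      have h4 : (c : ℤ) + 1 ≤ 2 * h := by
        have : c + 1 ≤ 2 * h := by omega
        exact_mod_cast this
      have h5 : (0 : ℤ) ≤ 3 * h * (x - c - 1) := by
        apply mul_nonneg
        · positivity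
        · linarith
      nlinarith

theorem isHomogeneous_part (p : (ι →₀ ℕ) → Prop) [DecidablePred p] {G : MvPolynomial ι K} {D : ℕ}
    (hG : G.IsHomogeneous D) : (part p G).IsHomogeneous D := by
  intro m hm
  exact hG (mem_support_iff.mp (support_part p G (mem_support_iff.mpr hm)).1)

/-- the grades of a homogeneous polynomial of degree `D ≤ n`, all `≤ -t` -/
theorem exists_grades {φ : ι → ℤ} {h : ℕ} (hφ : ∀ i, φ i = 3 * h ∨ φ i = -(3 * h + 1))
    {A : MvPolynomial ι K} {D n : ℕ} (hA : A.IsHomogeneous D) (hD : D ≤ n)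
    (p : ℤ → Prop) (hp : ∀ m ∈ A.support, p (Finsupp.weight φ m)) :
    ∃ E : Finset ℤ, (∀ m ∈ A.support, Finsupp.weight φ m ∈ E) ∧ E.card ≤ n + 1 ∧
      ∀ a ∈ E, p a := by
  classical
  refine ⟨((range (D + 1)).image fun c : ℕ => (3 * h * (D : ℤ) - (6 * h + 1) * c)).filter p,
    ?_, ?_, ?_⟩
  · intro m hm
    rw [mem_filter]
    refine ⟨?_, hp m hm⟩
    obtain ⟨c, hc, hw⟩ := weight_eq hφ m
    have hdeg : m.degree = D := by
      have := hA (mem_support_iff.mp hm)
      rwa [Finsupp.degree_eq_weight_one]
    rw [hdeg] at hc hw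
    rw [mem_image]
    exact ⟨c, mem_range.mpr (by omega), hw.symm⟩
  · refine (card_filter_le _ _).trans (card_image_le.trans ?_)
    rw [card_range]; omega
  · intro a ha
    exact (mem_filter.mp ha).2

end LemmaB

end MeasureAux

section Measure

variable {K : Type u} [Field K] {ι : Type v} [DecidableEq ι] [Fintype ι]

/-- Lemma B -/
theorem mu_isTerm_le {φ : ι → ℤ} {h ρ n : ℕ} (hφ : ∀ i, φ i = 3 * h ∨ φ i = -(3 * h + 1))
    (hh : 1 ≤ h) {q : ℝ} (hq : 1 ≤ q) {Φ : ℤ} (hΦ : 0 ≤ Φ) {P : MvPolynomial ι K}
    (hP : IsTerm h ρ n P) :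
    mu φ Φ q P ≤ 2 ^ (2 * ρ) * (n + 1) * q ^ (Φ - h * ρ) * Ztot φ q := by
  classical
  obtain ⟨G, D, R, hG, hD, hn, rfl⟩ := hP
  have hq0 : 0 < q := by linarith
  have hZ : 0 ≤ Ztot φ q := Finset.sum_nonneg fun U _ => (zpow_pos hq0 _).le
  set pm : (ι →₀ ℕ) → Prop := fun m => Finsupp.weight φ m ≤ 0 with hpm
  set Gm : Fin (2 * ρ) → MvPolynomial ι K := fun j => part pm (G j) with hGm
  set Gp : Fin (2 * ρ) → MvPolynomial ι K := fun j => part (fun m => ¬ pm m) (G j) with hGp
  have hsplit : ∏ j, G j = ∑ S ∈ (univ : Finset (Fin (2 * ρ))).powerset,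
      (∏ j ∈ S, Gm j) * ∏ j ∈ univ \ S, Gp j := by
    rw [← Finset.prod_add]
    exact Finset.prod_congr rfl fun j _ => (part_add_part pm (G j)).symm
  have hcase : ∀ j, ∀ m ∈ (G j).support,
      Finsupp.weight φ m ≤ -(h : ℤ) ∨ (h : ℤ) ≤ Finsupp.weight φ m := by
    intro j m hm
    apply weight_cases hh hφ
    have h1 : m.degree = D j := by
      have := hG j (mem_support_iff.mp hm)
      rwa [Finsupp.degree_eq_weight_one]
    rw [h1]
    exact hD j
  have hh' : (1 : ℤ) ≤ h := by exact_mod_cast hh
  have hm' : ∀ j, ∀ m ∈ (Gm j).support, Finsupp.weight φ m ≤ -(h : ℤ) := by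
    intro j m hm
    obtain ⟨h1, h2⟩ := support_part _ _ hm
    rcases hcase j m h1 with h3 | h3
    · exact h3
    · simp only [hpm] at h2; linarith
  have hp' : ∀ j, ∀ m ∈ (Gp j).support, (h : ℤ) ≤ Finsupp.weight φ m := by
    intro j m hm
    obtain ⟨h1, h2⟩ := support_part _ _ hm
    rcases hcase j m h1 with h3 | h3
    · simp only [hpm] at h2; exfalso; apply h2; linarith
    · exact h3
  have hsumD : ∀ S : Finset (Fin (2 * ρ)), ∑ j ∈ S, D j ≤ n := fun S =>
    (Finset.sum_le_sum_of_subset (Finset.subset_univ S)).trans hn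
  have hterm : ∀ S ∈ (univ : Finset (Fin (2 * ρ))).powerset,
      mu φ Φ q (((∏ j ∈ S, Gm j) * ∏ j ∈ univ \ S, Gp j) * R) ≤
        (n + 1) * q ^ (Φ - h * ρ) * Ztot φ q := by
    intro S _
    by_cases hS : ρ ≤ S.card
    · obtain ⟨E, hE1, hE2, hE3⟩ := exists_grades (n := n) hφ
        (IsHomogeneous.prod S Gm D fun j _ => isHomogeneous_part pm (hG j)) (hsumD S)
        (fun a => a ≤ -(h * ρ : ℤ)) (by
          intro m hm
          have h1 := support_prod S Gm (fun m => Finsupp.weight φ m) (by simp) (by simp)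
            (fun _ => -(h : ℤ)) (fun j _ => hm' j) m hm
          refine h1.trans ?_
          rw [Finset.sum_const, nsmul_eq_mul]
          have h2 : (ρ : ℤ) ≤ S.card := by exact_mod_cast hS
          nlinarith)
      rw [mul_assoc]
      refine (mu_mul_le_left _ _ φ Φ hq0 E hE1).trans ?_
      apply mul_le_mul_of_nonneg_right _ hZ
      calc ∑ a ∈ E, q ^ a ≤ ∑ a ∈ E, q ^ (Φ - h * ρ) := by
            apply Finset.sum_le_sum
            intro a ha
            apply zpow_le_zpow_right₀ hq
            have := hE3 a ha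
            linarith
        _ = E.card * q ^ (Φ - h * ρ) := by rw [Finset.sum_const, nsmul_eq_mul]
        _ ≤ (n + 1) * q ^ (Φ - h * ρ) := by
            apply mul_le_mul_of_nonneg_right _ (zpow_pos hq0 _).le
            exact_mod_cast hE2
    · have hS' : ρ ≤ (univ \ S).card := by
        rw [Finset.card_sdiff_of_subset (Finset.subset_univ S), Finset.card_univ, Fintype.card_fin]
        omega
      obtain ⟨E, hE1, hE2, hE3⟩ := exists_grades (n := n) hφ
        (IsHomogeneous.prod (univ \ S) Gp D fun j _ => isHomogeneous_part _ (hG j))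
        (hsumD (univ \ S))
        (fun a => (h * ρ : ℤ) ≤ a) (by
          intro m hm
          have h1 := support_prod (univ \ S) Gp (fun m => -Finsupp.weight φ m) (by simp)
            (by intro a b; rw [map_add]; ring)
            (fun _ => -(h : ℤ)) (fun j _ m hm => by have := hp' j m hm; linarith) m hm
          rw [Finset.sum_const, nsmul_eq_mul] at h1
          have h2 : (ρ : ℤ) ≤ (univ \ S).card := by exact_mod_cast hS'
          nlinarith)
      rw [mul_right_comm]
      refine (mu_mul_le_right _ _ φ Φ hq0 E hE1).trans ?_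
      apply mul_le_mul_of_nonneg_right _ hZ
      calc ∑ a ∈ E, q ^ (Φ - a) ≤ ∑ a ∈ E, q ^ (Φ - h * ρ) := by
            apply Finset.sum_le_sum
            intro a ha
            apply zpow_le_zpow_right₀ hq
            have := hE3 a ha
            linarith
        _ = E.card * q ^ (Φ - h * ρ) := by rw [Finset.sum_const, nsmul_eq_mul]
        _ ≤ (n + 1) * q ^ (Φ - h * ρ) := by
            apply mul_le_mul_of_nonneg_right _ (zpow_pos hq0 _).le
            exact_mod_cast hE2
  rw [hsplit, Finset.sum_mul]
  refine (mu_sum_le _ _ φ Φ hq0).trans ((Finset.sum_le_sum hterm).trans ?_)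
  rw [Finset.sum_const, Finset.card_powerset, Finset.card_univ, Fintype.card_fin, nsmul_eq_mul]
  push_cast
  apply le_of_eq
  ring

end Measure

end Vale.Agent.P346
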