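import Vale.Agent.P346.Core

/-!
# P346: from the independence of the good rows to the measure of the Hankel polynomial
-/

namespace Vale.Agent.P346

open MvPolynomial

universe u v

section

variable {K : Type u} [Field K]

theorem hankelPoly_isWeightedHomogeneous (h n : ℕ) :
    IsWeightedHomogeneous (phiH h n) (hankelPoly K n) (∑ s ∈ Finset.range n, ty h s) := by
  unfold hankelPoly IMM
  rw [map_sum]
  refine IsWeightedHomogeneous.sum _ _ _ fun p _ => ?_
  split_ifs
  · rw [map_prod]
    simp only [rename_X]
    have e : (∑ s ∈ Finset.range n, ty h s) =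
        ∑ t : Fin n, phiH h n (hankelMap n (t, p t.castSucc, p t.succ)) := by
      simp only [phiH, hankelMap]
      rw [← Fin.sum_univ_eq_sum_range (fun s => ty h s) n]
      exact (Equiv.sum_comp Fin.revPerm (fun t : Fin n => ty h (t : ℕ))).symm
    rw [e]
    exact IsWeightedHomogeneous.prod _ _ _ fun t _ => isWeightedHomogeneous_X K _ _
  · rw [map_zero]
    exact isWeightedHomogeneous_zero K _ _

theorem weight_sum_single {ι : Type v} (φ : ι → ℤ) (S : Finset ι) :
    Finsupp.weight φ (∑ i ∈ S, Finsupp.single i 1) = grade φ S := by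
  rw [map_sum, grade]
  refine Finset.sum_congr rfl fun i _ => ?_
  rw [Finsupp.weight_single, one_smul]

theorem transfer_eq_zero_of_grade {ι : Type v} [DecidableEq ι] [Fintype ι] {φ : ι → ℤ} {Φ : ℤ}
    {P : MvPolynomial ι K}
    (hP : IsWeightedHomogeneous φ P Φ) (U U' : Finset ι) (hg : grade φ U' ≠ grade φ U - Φ) :
    transfer P U U' = 0 := by
  unfold transfer
  rw [Matrix.of_apply]
  split_ifs with hs
  · unfold sqCoeff
    refine hP.coeff_eq_zero _ ?_
    rw [weight_sum_single]
    intro he
    apply hg
    have := Finset.sum_sdiff (f := φ) hs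
    unfold grade at *
    omega
  · rfl

theorem blockRank_ge {ι : Type v} [DecidableEq ι] [Fintype ι] {φ : ι → ℤ} {Φ : ℤ}
    {P : MvPolynomial ι K} (hP : IsWeightedHomogeneous φ P Φ) (G : Finset ι → Prop)
    (hrows : ∀ a : Finset ι → K, (∀ U, a U ≠ 0 → G U) →
      (∀ U', ∑ U, a U * transfer P U U' = 0) → a = 0) (g : ℤ) [DecidablePred G] :
    (Finset.univ.filter fun U => grade φ U = g ∧ G U).card ≤ blockRank φ Φ g P := by
  classical
  unfold blockRank
  set B : Matrix {U : Finset ι // grade φ U = g} {U' : Finset ι // grade φ U' = g - Φ} K :=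
    Matrix.of fun U U' => transfer P U.1 U'.1 with hB
  set s := {U : Finset ι // grade φ U = g ∧ G U}
  have hli : LinearIndependent K (fun U : s => (B.submatrix
      (fun U : s => (⟨U.1, U.2.1⟩ : {U : Finset ι // grade φ U = g})) id) U) := by
    rw [Fintype.linearIndependent_iff]
    intro a ha U
    -- extend `a` by zero
    let a' : Finset ι → K := fun U => if hU : grade φ U = g ∧ G U then a ⟨U, hU⟩ else 0
    have key : a' = 0 := by
      apply hrows
      · intro U hU
        by_contra hG
        apply hU
        simp only [a']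
        rw [dif_neg]
        exact fun h => hG h.2
      · intro U'
        have e1 : ∑ U, a' U * transfer P U U' = ∑ U : s, a U * transfer P U.1 U' := by
          symm
          have : ∀ U : s, a U * transfer P U.1 U' = a' U.1 * transfer P U.1 U' := by
            intro U
            simp only [a']
            rw [dif_pos U.2]
          rw [Finset.sum_congr rfl fun U _ => this U]
          rw [← Finset.sum_subtype (Finset.univ.filter fun U => grade φ U = g ∧ G U) (by simp)
            (fun U => a' U * transfer P U U')]
          refine Finset.sum_filter_of_ne fun U _ hne => ?_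
          by_contra hU
          apply hne
          simp only [a']
          rw [dif_neg hU, zero_mul]
        rw [e1]
        by_cases hg : grade φ U' = g - Φ
        · have := congrFun ha ⟨U', hg⟩
          simpa [B] using this
        · refine Finset.sum_eq_zero fun U _ => ?_
          rw [transfer_eq_zero_of_grade hP, mul_zero]
          rw [U.2.1]; exact hg
    have := congrFun key U.1
    simp only [a'] at this
    rw [dif_pos U.2] at this
    exact this
  have h1 := hli.rank_matrix
  rw [← Fintype.card_subtype]
  calc Fintype.card s = _ := h1.symm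
    _ ≤ B.rank := Matrix.rank_submatrix_le _ _ _

theorem mu_ge_of_rows {ι : Type v} [DecidableEq ι] [Fintype ι] {φ : ι → ℤ} {Φ : ℤ}
    {P : MvPolynomial ι K} (hP : IsWeightedHomogeneous φ P Φ) (G : Finset ι → Prop)
    [DecidablePred G] (hrows : ∀ a : Finset ι → K, (∀ U, a U ≠ 0 → G U) →
      (∀ U', ∑ U, a U * transfer P U U' = 0) → a = 0) {q : ℝ} (hq : 0 < q) :
    (∑ U : Finset ι, if G U then q ^ grade φ U else 0) ≤ mu φ Φ q P := by
  unfold mu
  rw [← Finset.sum_fiberwise_of_maps_to
    (fun U _ => Finset.mem_image_of_mem (grade φ) (Finset.mem_univ U))]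
  refine Finset.sum_le_sum fun g _ => ?_
  have e : (∑ U ∈ Finset.univ.filter (fun U => grade φ U = g),
      if G U then q ^ grade φ U else 0) =
      q ^ g * ((Finset.univ.filter fun U => grade φ U = g ∧ G U).card : ℝ) := by
    rw [Finset.sum_ite, Finset.sum_const_zero, add_zero, Finset.filter_filter]
    rw [Finset.sum_congr rfl (g := fun _ => q ^ g)]
    · rw [Finset.sum_const, nsmul_eq_mul, mul_comm]
    · intro U hU
      rw [(Finset.mem_filter.1 hU).2.1]
  rw [e]
  exact mul_le_mul_of_nonneg_left (by exact_mod_cast blockRank_ge hP G hrows g)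
    (zpow_pos hq g).le

open Classical in
theorem mu_hankel_ge_of_rows {n h : ℕ}
    (hrows : ∀ a : Finset (HVar n) → K, (∀ U, a U ≠ 0 → Good n (2 * n - 1) n 1 (chi U)) →
      (∀ U', ∑ U, a U * transfer (hankelPoly K n) U U' = 0) → a = 0)
    {q : ℝ} (hq : 0 < q) :
    (∑ U : Finset (HVar n),
      if Good n (2 * n - 1) n 1 (chi U) then q ^ grade (phiH h n) U else 0) ≤
      mu (phiH h n) (∑ s ∈ Finset.range n, ty h s) q (hankelPoly K n) :=
  mu_ge_of_rows (hankelPoly_isWeightedHomogeneous h n) _ hrows hq

end

end Vale.Agent.P346
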