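import Vale.Agent.P346.Core
import Vale.Agent.P346.H83.NF

/-!
# P346: the normal form of syntactically homogeneous ΣΠΣΠΣ circuits
-/

namespace Vale.Agent.P346

open MvPolynomial

universe u v

namespace NormalFormAux

variable {K : Type u} [Field K] {σ : Type v}

theorem leaf_hom (C : Circuit K σ) (l : Fin C.nLeaf) :
    (C.leafVal l).IsHomogeneous (C.leafDeg l) := by
  unfold Circuit.leafVal Circuit.leafDeg
  cases C.leaf l with
  | inl x => exact isHomogeneous_X K x
  | inr c => exact isHomogeneous_C σ c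

theorem leafDeg_le (C : Circuit K σ) (l : Fin C.nLeaf) : C.leafDeg l ≤ 1 := by
  unfold Circuit.leafDeg
  cases C.leaf l with
  | inl x => exact le_rfl
  | inr c => exact Nat.zero_le _

/-- the bottom sum has no input -/
def Empty1 (C : Circuit K σ) (g : Fin C.nSum1) : Prop := ∀ l, C.sum1 g l = 0

/-- the lower product gate reads an empty sum -/
def Null2 (C : Circuit K σ) (c : Fin C.nProd2) : Prop := ∃ g, C.prod2 c g ≠ 0 ∧ Empty1 C g

theorem sum1Val_empty (C : Circuit K σ) {g : Fin C.nSum1} (hg : Empty1 C g) :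
    C.sum1Val g = 0 := by
  unfold Circuit.sum1Val
  apply Finset.sum_eq_zero
  intro l _
  rw [hg l, map_zero, zero_mul]

theorem prod2Val_null (C : Circuit K σ) {c : Fin C.nProd2} (hc : Null2 C c) :
    C.prod2Val c = 0 := by
  obtain ⟨g, h1, h2⟩ := hc
  unfold Circuit.prod2Val
  apply Finset.prod_eq_zero (Finset.mem_univ g)
  rw [sum1Val_empty C h2, zero_pow h1]

open Classical in
/-- the presentation of a circuit used in `NF`: edges from null products are removed -/
noncomputable def toData (C : Circuit K σ) :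
    NF.Data K σ (Fin C.nProd4) (Fin C.nSum3) (Fin C.nProd2) (Fin C.nSum1) where
  α := C.out
  m := C.prod4
  β := fun b c => if Null2 C c then 0 else C.sum3 b c
  k := C.prod2
  L := C.sum1Val

theorem toData_mid (C : Circuit K σ) (b : Fin C.nSum3) : (toData C).mid b = C.sum3Val b := by
  unfold NF.Data.mid Circuit.sum3Val
  apply Finset.sum_congr rfl
  intro c _
  have h1 : (toData C).bot c = C.prod2Val c := rfl
  by_cases hc : Null2 C c
  · rw [h1, prod2Val_null C hc, mul_zero, mul_zero]
  · rw [h1]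
    congr 2
    simp [toData, hc]

theorem toData_out (C : Circuit K σ) : (toData C).out = C.eval := by
  unfold NF.Data.out Circuit.eval
  apply Finset.sum_congr rfl
  intro a _
  congr 1
  unfold NF.Data.top Circuit.prod4Val
  apply Finset.prod_congr rfl
  intro b _
  rw [toData_mid]
  rfl

open Classical in
/-- degrees of the bottom sums, `0` for the empty ones -/
noncomputable def deg1 (C : Circuit K σ) (d1 : Fin C.nSum1 → ℕ) (g : Fin C.nSum1) : ℕ :=
  if Empty1 C g then 0 else d1 g

theorem toData_hom (C : Circuit K σ) {d1 : Fin C.nSum1 → ℕ} {d3 : Fin C.nSum3 → ℕ} {d5 : ℕ}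
    (h1 : ∀ g l, C.sum1 g l ≠ 0 → C.leafDeg l = d1 g)
    (h3 : ∀ g l, C.sum3 g l ≠ 0 → ∑ i, C.prod2 l i * d1 i = d3 g)
    (h5 : ∀ l, C.out l ≠ 0 → ∑ i, C.prod4 l i * d3 i = d5) :
    (toData C).Hom d5 (deg1 C d1) d3 where
  le_one g := by
    unfold deg1
    split_ifs with hg
    · exact Nat.zero_le _
    · unfold Empty1 at hg
      push Not at hg
      obtain ⟨l, hl⟩ := hg
      rw [← h1 g l hl]
      exact leafDeg_le C l
  lin g := by
    have hL : (toData C).L g = C.sum1Val g := rfl
    rw [hL]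
    by_cases hg : Empty1 C g
    · rw [sum1Val_empty C hg]
      exact isHomogeneous_zero _ _ _
    · unfold deg1 Circuit.sum1Val
      rw [if_neg hg]
      apply IsHomogeneous.sum
      intro l _
      by_cases hl : C.sum1 g l = 0
      · rw [hl, map_zero, zero_mul]
        exact isHomogeneous_zero _ _ _
      · have h2 := (isHomogeneous_C σ (C.sum1 g l)).mul (leaf_hom C l)
        rwa [zero_add, h1 g l hl] at h2
  mid b c hbc := by
    have h2 : ¬ Null2 C c ∧ C.sum3 b c ≠ 0 := by
      simp only [toData] at hbc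
      split_ifs at hbc with hc
      · exact absurd rfl hbc
      · exact ⟨hc, hbc⟩
    rw [← h3 b c h2.2]
    apply Finset.sum_congr rfl
    intro e _
    change C.prod2 c e * deg1 C d1 e = C.prod2 c e * d1 e
    by_cases he : C.prod2 c e = 0
    · rw [he, zero_mul, zero_mul]
    · unfold deg1
      rw [if_neg fun h => h2.1 ⟨e, he, h⟩]
  top a ha := h5 a ha

theorem isTerm_of_term {h ρ n : ℕ} {F : MvPolynomial σ K} (hF : NF.Data.Term K σ h (2 * ρ) n F) :
    IsTerm h ρ n F := by
  obtain ⟨G, D, R, e, hG, _, hs, hF⟩ := hF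
  exact ⟨G, D, R, fun j => (hG j).1, fun j => (hG j).2, by omega, hF⟩

end NormalFormAux

section NormalForm

variable {K : Type u} [Field K] {σ : Type v}

theorem Circuit.exists_isTerm (C : Circuit K σ) (hC : C.IsSyntHomogeneous) {n h ρ : ℕ}
    (hF : C.eval.IsHomogeneous n) (hne : C.eval ≠ 0) (hh : 1 ≤ h) (h1 : 8 * h * ρ ≤ n)
    (h2 : ρ ≤ h) :
    ∃ (N : ℕ) (T : Fin N → MvPolynomial σ K), N ≤ C.size ^ 2 ∧ (∀ k, IsTerm h ρ n (T k)) ∧
      C.eval = ∑ k, T k := by
  obtain ⟨d1, d3, d5, e1, e3, e5⟩ := hC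
  have hX := NormalFormAux.toData_hom C e1 e3 e5
  have hout := NormalFormAux.toData_out C
  have hd5 : C.eval.IsHomogeneous d5 := by
    rw [← hout]
    unfold NF.Data.out
    apply IsHomogeneous.sum
    intro a _
    by_cases ha : (NormalFormAux.toData C).α a = 0
    · rw [ha, map_zero, zero_mul]
      exact isHomogeneous_zero _ _ _
    · have h3 : ((NormalFormAux.toData C).top a).IsHomogeneous d5 := by
        unfold NF.Data.top
        rw [← hX.top a ha, ← NF.Data.map_prod_mlist, ← NF.Data.map_sum_mlist]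
        exact NF.isHomogeneous_list_prod _ _ _ fun b _ =>
          NF.Data.mid_hom (NormalFormAux.toData C) hX b
      have h4 := (isHomogeneous_C σ ((NormalFormAux.toData C).α a)).mul h3
      rwa [zero_add] at h4
  have hn : d5 = n := hd5.inj_right hF hne
  subst hn
  obtain ⟨T, hT, hsum⟩ := NF.Data.normal_form (NormalFormAux.toData C) hX h (2 * ρ) (by omega)
    (by omega) (by
      have : 4 * h * (2 * ρ) = 8 * h * ρ := by ring
      omega)
  rw [hout] at hsum
  have e : Fin (C.nProd4 * (C.nProd2 + 1)) ≃ Fin C.nProd4 × Option (Fin C.nProd2) :=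
    (finProdFinEquiv.symm).trans (Equiv.prodCongr (Equiv.refl _) (finSuccEquiv C.nProd2))
  refine ⟨C.nProd4 * (C.nProd2 + 1), fun k => T (e k).1 (e k).2, ?_, ?_, ?_⟩
  · have h6 : C.nProd4 ≤ C.size := by unfold Circuit.size; omega
    have h7 : C.nProd2 + 1 ≤ C.size := by unfold Circuit.size; omega
    rw [sq]
    exact Nat.mul_le_mul h6 h7
  · intro k
    exact NormalFormAux.isTerm_of_term (hT _ _)
  · rw [hsum, ← Fintype.sum_prod_type']
    exact (Equiv.sum_comp e fun x => T x.1 x.2).symm

theorem IsTerm.rename {τ : Type*} (f : σ → τ) {h ρ n : ℕ} {P : MvPolynomial σ K}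
    (hP : IsTerm h ρ n P) : IsTerm h ρ n (MvPolynomial.rename f P) := by
  obtain ⟨G, D, R, hG, hD, hs, hP⟩ := hP
  refine ⟨fun j => MvPolynomial.rename f (G j), D, MvPolynomial.rename f R,
    fun j => (hG j).rename_isHomogeneous, hD, hs, ?_⟩
  rw [hP, map_mul, map_prod]

end NormalForm

end Vale.Agent.P346
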