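import Vale.Agent.P346.Core

/-!
# P346: the final asymptotics
-/

namespace Vale.Agent.P346

namespace NumericAux

theorem hh_lt {n h : ℕ} (hh : h = Nat.sqrt n + 1) : (h : ℝ) ≤ √(n : ℝ) + 1 := by
  have h1 : (Nat.sqrt n : ℝ) ≤ √(n : ℝ) := Real.nat_sqrt_le_real_sqrt
  rw [hh]; push_cast; linarith

theorem lt_hh {n h : ℕ} (hh : h = Nat.sqrt n + 1) : √(n : ℝ) ≤ h := by
  have h1 : n < h * h := by simpa [hh] using Nat.lt_succ_sqrt n
  have h2 : (n : ℝ) ≤ (h : ℝ) ^ 2 := by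
    have : n ≤ h ^ 2 := by nlinarith
    exact_mod_cast this
  exact Real.sqrt_le_iff.2 ⟨Nat.cast_nonneg _, h2⟩

theorem rho_ge {n h ρ : ℕ} (hh : h = Nat.sqrt n + 1) (hρ : ρ = n / (8 * h)) :
    √(n : ℝ) / 8 - 9 / 8 ≤ ρ := by
  have h0 : 0 < h := by omega
  have h1 : (0 : ℝ) < h := by exact_mod_cast h0
  have h2 := hh_lt hh
  have h3 : (n : ℝ) < 8 * h * (ρ + 1) := by
    have : n < 8 * h * (ρ + 1) := by
      rw [hρ]
      exact Nat.lt_mul_div_succ n (b := 8 * h) (by omega)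
    exact_mod_cast this
  have h4 : (n : ℝ) = √(n : ℝ) * √(n : ℝ) := (Real.mul_self_sqrt (Nat.cast_nonneg n)).symm
  set x := √(n : ℝ) with hx
  have hx0 : 0 ≤ x := Real.sqrt_nonneg _
  by_contra hcon
  push Not at hcon
  have h5 : (ρ : ℝ) + 1 < (x - 1) / 8 := by linarith
  have h6 : 0 < x - 1 := by
    have : (0 : ℝ) ≤ ρ := Nat.cast_nonneg _
    linarith
  have h7 : 8 * (h : ℝ) * (ρ + 1) < h * (x - 1) := by nlinarith
  have h8 : (h : ℝ) * (x - 1) ≤ (x + 1) * (x - 1) := by nlinarith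
  nlinarith

theorem rho_le {n h ρ : ℕ} (hn : 1 ≤ n) (hh : h = Nat.sqrt n + 1) (hρ : ρ = n / (8 * h)) :
    (ρ : ℝ) ≤ √(n : ℝ) / 8 := by
  have h0 : (0 : ℝ) < n := by exact_mod_cast hn
  have h1 : (8 * h * ρ : ℝ) ≤ n := by
    have : 8 * h * ρ ≤ n := by rw [hρ]; exact Nat.mul_div_le n (8 * h)
    exact_mod_cast this
  have h2 := lt_hh hh
  have h4 : (n : ℝ) = √(n : ℝ) * √(n : ℝ) := (Real.mul_self_sqrt (Nat.cast_nonneg n)).symm
  have hx0 : 0 < √(n : ℝ) := Real.sqrt_pos.2 h0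
  have h5 : (0 : ℝ) ≤ ρ := Nat.cast_nonneg _
  nlinarith

/-- The final inequality in logarithmic form. -/
theorem log_bound {n h ρ : ℕ} (hn : 1 ≤ n) (hL : 2000 ≤ Real.log n)
    (hh : h = Nat.sqrt n + 1) (hρ : ρ = n / (8 * h)) {s : ℝ} (hs : 0 < s)
    (H : (1 / 2) * (n : ℝ) ^ (-(3 / 4) : ℝ) * Real.exp (-√(n : ℝ)) ≤
      s ^ 2 * (2 ^ (2 * ρ) * ((n : ℝ) + 1) *
        ((n : ℝ) ^ (1 / 4 : ℝ) * (n : ℝ) ^ (-(ρ / 24) : ℝ)))) :
    √(n : ℝ) / 1000 * Real.log n ≤ Real.log s := by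
  have hn0 : (0 : ℝ) < n := by exact_mod_cast hn
  have hlog2 : Real.log 2 ≤ 1 := by
    have := Real.log_two_lt_d9; linarith
  have hlog20 : 0 ≤ Real.log 2 := Real.log_nonneg (by norm_num)
  have H2 := Real.log_le_log (by positivity) H
  rw [Real.log_mul (by positivity) (by positivity), Real.log_mul (by positivity) (by positivity),
    Real.log_exp, Real.log_rpow hn0, Real.log_mul (by positivity) (by positivity),
    Real.log_mul (by positivity) (by positivity), Real.log_mul (by positivity) (by positivity),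
    Real.log_mul (by positivity) (by positivity),
    Real.log_pow, Real.log_pow, Real.log_rpow hn0, Real.log_rpow hn0] at H2
  have h1 : Real.log (1 / 2) = - Real.log 2 := by rw [one_div, Real.log_inv]
  rw [h1] at H2
  push_cast at H2
  have hL0 : 0 < Real.log n := by linarith
  have hr1 := rho_le hn hh hρ
  have hr2 := rho_ge hh hρ
  have hr0 : (0 : ℝ) ≤ ρ := Nat.cast_nonneg _
  have h2 : Real.log ((n : ℝ) + 1) ≤ Real.log n + Real.log 2 := by
    rw [← Real.log_mul (by positivity) (by norm_num)]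
    apply Real.log_le_log (by positivity)
    have : (1 : ℝ) ≤ n := by exact_mod_cast hn
    linarith
  set x := √(n : ℝ) with hx
  set L := Real.log n with hLdef
  have hx1 : 1000 ≤ x := by
    have h8 : L = 4 * Real.log (√x) := by
      rw [Real.log_sqrt (Real.sqrt_nonneg _), Real.log_sqrt (Nat.cast_nonneg n)]; ring
    have hx0 : 0 < x := Real.sqrt_pos.2 hn0
    have h9 : Real.log (√x) ≤ √x - 1 := Real.log_le_sub_one_of_pos (Real.sqrt_pos.2 hx0)
    have h10 : 250 ≤ √x := by linarith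
    have h11 : x = √x * √x := (Real.mul_self_sqrt hx0.le).symm
    nlinarith
  have h4 : ρ * L / 24 ≥ (x / 8 - 9 / 8) * L / 24 := by
    have : (x / 8 - 9 / 8) * L ≤ ρ * L := by gcongr
    linarith
  have h5 : 2 * Real.log s ≥ (x / 8 - 9 / 8) * L / 24 - L / 4 - (L + Real.log 2) -
      2 * ρ * Real.log 2 - Real.log 2 - 3 / 4 * L - x := by
    nlinarith
  have h6 : 2 * (ρ : ℝ) * Real.log 2 ≤ x / 4 := by
    nlinarith
  have h7 : 1000 * L ≤ x * L := by gcongr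
  have h8 : 2000 * x ≤ x * L := by nlinarith
  nlinarith

end NumericAux

theorem final_numeric : ∃ c : ℝ, 0 < c ∧ ∃ N₀ : ℕ, ∀ n : ℕ, N₀ ≤ n → ∀ h ρ s : ℕ,
    h = Nat.sqrt n + 1 → ρ = n / (8 * h) →
    (1 / 2) * (n : ℝ) ^ (-(3 / 4) : ℝ) * Real.exp (-√n) ≤
      (s : ℝ) ^ 2 * (2 ^ (2 * ρ) * (n + 1) * ((n : ℝ) ^ (1 / 4 : ℝ) * (n : ℝ) ^ (-(ρ / 24) : ℝ))) →
    (n : ℝ) ^ (c * √n) ≤ s := by
  refine ⟨1 / 1000, by norm_num, ⌈Real.exp 2000⌉₊, fun n hn h ρ s hh hρ H => ?_⟩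
  have hn' : Real.exp 2000 ≤ n := (Nat.le_ceil _).trans (by exact_mod_cast hn)
  have hn0 : (0 : ℝ) < n := lt_of_lt_of_le (Real.exp_pos _) hn'
  have hn1 : 1 ≤ n := by exact_mod_cast hn0
  have hL : 2000 ≤ Real.log n := (Real.le_log_iff_exp_le hn0).2 hn'
  have hs : (0 : ℝ) < s := by
    rcases Nat.eq_zero_or_pos s with h0 | h0
    · exfalso
      subst h0
      have : (0 : ℝ) < (1 / 2) * (n : ℝ) ^ (-(3 / 4) : ℝ) * Real.exp (-√n) := by positivity
      simp at H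
      have h3 : (0 : ℝ) < 2⁻¹ * (n : ℝ) ^ (-(3 / 4) : ℝ) * Real.exp (-√n) := by positivity
      linarith
    · exact_mod_cast h0
  rw [← Real.log_le_log_iff (by positivity) hs, Real.log_rpow hn0]
  have := NumericAux.log_bound hn1 hL hh hρ hs H
  calc 1 / 1000 * √(n : ℝ) * Real.log n = √(n : ℝ) / 1000 * Real.log n := by ring
    _ ≤ _ := this

end Vale.Agent.P346
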