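import Vale.Agent.P346.Core

/-!
# P346: the weight sequence
-/

namespace Vale.Agent.P346

theorem sum_ty (h T : ℕ) :
    ∑ s ∈ Finset.range T, ty h s = ((3 * h * T % (6 * h + 1) : ℕ) : ℤ) := by
  induction T with
  | zero => simp
  | succ T ih =>
    rw [Finset.sum_range_succ, ih]
    unfold ty kY
    have e1 := Nat.div_add_mod (3 * h * T) (6 * h + 1)
    have e2 := Nat.div_add_mod (3 * h * (T + 1)) (6 * h + 1)
    have l1 := Nat.mod_lt (3 * h * T) (show 0 < 6 * h + 1 by omega)
    have l2 := Nat.mod_lt (3 * h * (T + 1)) (show 0 < 6 * h + 1 by omega)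
    set a := 3 * h * T / (6 * h + 1)
    set b := 3 * h * (T + 1) / (6 * h + 1)
    set r := 3 * h * T % (6 * h + 1)
    set r' := 3 * h * (T + 1) % (6 * h + 1)
    have e3 : 3 * h * (T + 1) = 3 * h * T + 3 * h := by ring
    rw [e3, ← e1] at e2
    split_ifs with hba
    · rw [hba] at e2
      have : r' = r + 3 * h := by omega
      rw [this]; push_cast; ring
    · have hab : b = a + 1 := by
        have h1 : a ≤ b := Nat.div_le_div_right (by omega)
        have h2 : ¬ (a + 2 ≤ b) := by
          intro hc
          have := Nat.mul_le_mul_left (6 * h + 1) hc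
          have e4 : (6 * h + 1) * (a + 2) = (6 * h + 1) * a + 2 * (6 * h + 1) := by ring
          omega
        omega
      rw [hab] at e2
      have e4 : (6 * h + 1) * (a + 1) = (6 * h + 1) * a + (6 * h + 1) := by ring
      rw [e4] at e2
      have : (r' : ℤ) = r + 3 * h - (6 * h + 1) := by omega
      rw [this]; ring

end Vale.Agent.P346
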