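import Vale.Agent.P346.IMMFacts

/-!
# P346: the upper bound, circuits of size `n^{O(√n)}`

`r = ⌊√n⌋ + 1` blocks of `r` matrices (identity matrices past the `n`-th one).
-/

namespace Vale.Agent.P346

open MvPolynomial

universe u v

namespace UpperAux

section OfFintype

variable {K : Type u} {σ : Type v} {L S1 P2 S3 P4 : Type}
  [Fintype L] [Fintype S1] [Fintype P2] [Fintype S3] [Fintype P4]

/-- a circuit from data indexed by finite types -/
noncomputable def ofFintype (leaf : L → σ ⊕ K) (sum1 : S1 → L → K) (prod2 : P2 → S1 → ℕ)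
    (sum3 : S3 → P2 → K) (prod4 : P4 → S3 → ℕ) (out : P4 → K) : Circuit K σ where
  nLeaf := Fintype.card L
  nSum1 := Fintype.card S1
  nProd2 := Fintype.card P2
  nSum3 := Fintype.card S3
  nProd4 := Fintype.card P4
  leaf l := leaf ((Fintype.equivFin L).symm l)
  sum1 g l := sum1 ((Fintype.equivFin S1).symm g) ((Fintype.equivFin L).symm l)
  prod2 g l := prod2 ((Fintype.equivFin P2).symm g) ((Fintype.equivFin S1).symm l)
  sum3 g l := sum3 ((Fintype.equivFin S3).symm g) ((Fintype.equivFin P2).symm l)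
  prod4 g l := prod4 ((Fintype.equivFin P4).symm g) ((Fintype.equivFin S3).symm l)
  out g := out ((Fintype.equivFin P4).symm g)

variable (leaf : L → σ ⊕ K) (sum1 : S1 → L → K) (prod2 : P2 → S1 → ℕ)
    (sum3 : S3 → P2 → K) (prod4 : P4 → S3 → ℕ) (out : P4 → K)

theorem ofFintype_size : (ofFintype leaf sum1 prod2 sum3 prod4 out).size =
    Fintype.card L + Fintype.card S1 + Fintype.card P2 + Fintype.card S3 + Fintype.card P4 + 1 :=
  rfl

theorem ofFintype_eval [CommSemiring K] : (ofFintype leaf sum1 prod2 sum3 prod4 out).eval =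
    ∑ a : P4, MvPolynomial.C (out a) * ∏ b : S3, (∑ c : P2, MvPolynomial.C (sum3 b c) *
      ∏ e : S1, (∑ l : L, MvPolynomial.C (sum1 e l) *
        (Sum.elim MvPolynomial.X MvPolynomial.C (leaf l))) ^ prod2 c e) ^ prod4 a b := by
  have h1 : ∀ g : Fin (Fintype.card S1), (ofFintype leaf sum1 prod2 sum3 prod4 out).sum1Val g =
      ∑ l : L, MvPolynomial.C (sum1 ((Fintype.equivFin S1).symm g) l) *
        (Sum.elim MvPolynomial.X MvPolynomial.C (leaf l)) := by
    intro g
    exact (Fintype.equivFin L).symm.sum_comp (fun l : L =>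
      MvPolynomial.C (sum1 ((Fintype.equivFin S1).symm g) l) *
        (Sum.elim MvPolynomial.X MvPolynomial.C (leaf l) : MvPolynomial σ K))
  have h2 : ∀ g : Fin (Fintype.card P2), (ofFintype leaf sum1 prod2 sum3 prod4 out).prod2Val g =
      ∏ e : S1, (∑ l : L, MvPolynomial.C (sum1 e l) *
        (Sum.elim MvPolynomial.X MvPolynomial.C (leaf l))) ^
          prod2 ((Fintype.equivFin P2).symm g) e := by
    intro g
    unfold Circuit.prod2Val
    rw [← (Fintype.equivFin S1).symm.prod_comp]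
    apply Finset.prod_congr rfl
    intro e _
    rw [h1 e]
    rfl
  have h3 : ∀ g : Fin (Fintype.card S3), (ofFintype leaf sum1 prod2 sum3 prod4 out).sum3Val g =
      ∑ c : P2, MvPolynomial.C (sum3 ((Fintype.equivFin S3).symm g) c) *
        ∏ e : S1, (∑ l : L, MvPolynomial.C (sum1 e l) *
          (Sum.elim MvPolynomial.X MvPolynomial.C (leaf l))) ^ prod2 c e := by
    intro g
    unfold Circuit.sum3Val
    rw [← (Fintype.equivFin P2).symm.sum_comp]
    apply Finset.sum_congr rfl
    intro e _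
    rw [h2 e]
    rfl
  have h4 : ∀ g : Fin (Fintype.card P4), (ofFintype leaf sum1 prod2 sum3 prod4 out).prod4Val g =
      ∏ b : S3, (∑ c : P2, MvPolynomial.C (sum3 b c) *
      ∏ e : S1, (∑ l : L, MvPolynomial.C (sum1 e l) *
        (Sum.elim MvPolynomial.X MvPolynomial.C (leaf l))) ^ prod2 c e) ^
          prod4 ((Fintype.equivFin P4).symm g) b := by
    intro g
    unfold Circuit.prod4Val
    rw [← (Fintype.equivFin S3).symm.prod_comp]
    apply Finset.prod_congr rfl
    intro e _
    rw [h3 e]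
    rfl
  unfold Circuit.eval
  rw [← (Fintype.equivFin P4).symm.sum_comp]
  apply Finset.sum_congr rfl
  intro e _
  rw [h4 e]
  rfl

theorem ofFintype_hom [Zero K] (d1 : S1 → ℕ) (d3 : S3 → ℕ) (d5 : ℕ)
    (H1 : ∀ g l, sum1 g l ≠ 0 → Sum.elim (fun _ => 1) (fun _ => 0) (leaf l) = d1 g)
    (H3 : ∀ g l, sum3 g l ≠ 0 → ∑ i, prod2 l i * d1 i = d3 g)
    (H5 : ∀ l, out l ≠ 0 → ∑ i, prod4 l i * d3 i = d5) :
    (ofFintype leaf sum1 prod2 sum3 prod4 out).IsSyntHomogeneous := by
  refine ⟨fun g => d1 ((Fintype.equivFin S1).symm g), fun g => d3 ((Fintype.equivFin S3).symm g),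
    d5, ?_, ?_, ?_⟩
  · intro g l h
    exact H1 _ _ h
  · intro g l h
    exact Eq.trans ((Fintype.equivFin S1).symm.sum_comp (fun i =>
      prod2 ((Fintype.equivFin P2).symm l) i * d1 i)) (H3 _ _ h)
  · intro l h
    exact Eq.trans ((Fintype.equivFin S3).symm.sum_comp (fun i =>
      prod4 ((Fintype.equivFin P4).symm l) i * d3 i)) (H5 _ h)

end OfFintype

/-! ### Matrix products over ranges -/
section Mat
variable {R : Type*} [Monoid R]

/-- product of `N a, …, N (a + len - 1)` -/
def mp (N : ℕ → R) (a len : ℕ) : R := ((List.range len).map fun s => N (a + s)).prod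

theorem mp_add (N : ℕ → R) (a l₁ l₂ : ℕ) : mp N a (l₁ + l₂) = mp N a l₁ * mp N (a + l₁) l₂ := by
  unfold mp
  rw [List.range_add, List.map_append, List.prod_append, List.map_map]
  congr 3
  funext s
  simp [Function.comp, add_assoc]

theorem mp_mul (N : ℕ → R) (r : ℕ) : ∀ k, mp (fun b => mp N (b * r) r) 0 k = mp N 0 (k * r)
  | 0 => by simp [mp]
  | k + 1 => by
    rw [mp_add, mp_mul N r k, Nat.succ_mul, mp_add, zero_add, zero_add]
    congr 1
    simp [mp]

theorem mp_one (N : ℕ → R) (a len : ℕ) (h : ∀ t, a ≤ t → N t = 1) : mp N a len = 1 := by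
  unfold mp
  apply List.prod_eq_one
  intro x hx
  rw [List.mem_map] at hx
  obtain ⟨s, _, rfl⟩ := hx
  exact h _ (by omega)

theorem ofFn_prod (N : ℕ → R) (a len : ℕ) :
    (List.ofFn fun t : Fin len => N (a + t)).prod = mp N a len := by
  unfold mp
  congr 1
  apply List.ext_getElem
  · simp
  · intro i h1 h2
    simp

end Mat

variable (K : Type u) [Field K]

/-- the extended sequence of matrices -/
noncomputable def NN (n : ℕ) (t : ℕ) : Matrix (Fin n) (Fin n) (MvPolynomial (Fin n × Fin n × Fin n) K) :=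
  if h : t < n then Matrix.of fun i j => X (⟨t, h⟩, i, j) else 1

theorem IMM_eq_mp (n r : ℕ) (hn : 1 ≤ n) (hr : n ≤ r * r) :
    IMM K n n = mp (fun b => mp (NN K n) (b * r) r) 0 r ⟨0, hn⟩ ⟨0, hn⟩ := by
  rw [mp_mul, IMM_eq_matrix_prod hn]
  have h1 : r * r = n + (r * r - n) := by omega
  rw [h1, mp_add, mp_one (NN K n) (0 + n) _ (by
    intro t ht
    unfold NN
    rw [dif_neg (by omega)]), mul_one, ← ofFn_prod]
  have h2 : (fun t : Fin n => (Matrix.of fun i j : Fin n =>
      (X (t, i, j) : MvPolynomial (Fin n × Fin n × Fin n) K))) =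
      fun t : Fin n => NN K n (0 + t) := by
    funext t
    unfold NN
    have : 0 + (t : ℕ) < n := by omega
    rw [dif_pos this]
    have e : (⟨0 + (t : ℕ), this⟩ : Fin n) = t := Fin.ext (by simp)
    rw [e]
  rw [h2]

/-- number of genuine layers in block `b` -/
def Dg (n r b : ℕ) : ℕ := ((Finset.range r).filter fun s => b * r + s < n).card

/-- multiplicity of the variable gate `(t, i, j)` in the product gate of block `b`, path `p` -/
def mult (n r : ℕ) (c : Fin r × (Fin (r + 1) → Fin n)) (e : Fin n × Fin n × Fin n) : ℕ :=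
  ∑ s : Fin r, if c.1 * r + s = e.1 ∧ c.2 s.castSucc = e.2.1 ∧ c.2 s.succ = e.2.2 then 1 else 0

/-- the coefficient of path `p` of block `b'` in the sum gate `(b, i, j)` -/
def coef (n r : ℕ) (g : Fin r × Fin n × Fin n) (c : Fin r × (Fin (r + 1) → Fin n)) : K :=
  if g.1 = c.1 ∧ c.2 0 = g.2.1 ∧ c.2 (Fin.last r) = g.2.2 ∧
    (∀ s : Fin r, n ≤ c.1 * r + s → c.2 s.castSucc = c.2 s.succ) then 1 else 0

/-- multiplicity of the sum gate `(b, i, j)` in the product gate `q` -/
def mult4 (n r : ℕ) (q : Fin (r + 1) → Fin n) (g : Fin r × Fin n × Fin n) : ℕ :=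
  if q g.1.castSucc = g.2.1 ∧ q g.1.succ = g.2.2 then 1 else 0

/-- output coefficient -/
def co (n r : ℕ) (q : Fin (r + 1) → Fin n) : K :=
  if (q 0 : ℕ) = 0 ∧ (q (Fin.last r) : ℕ) = 0 then 1 else 0

/-- the circuit -/
noncomputable def circ (n r : ℕ) : Circuit K (Fin n × Fin n × Fin n) :=
  ofFintype (L := Fin n × Fin n × Fin n) (S1 := Fin n × Fin n × Fin n)
    (fun l => Sum.inl l) (fun g l => if g = l then 1 else 0) (mult n r) (coef K n r) (mult4 n r)
    (co K n r)

theorem circ_size (n r : ℕ) : (circ K n r).size =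
    n * (n * n) + n * (n * n) + r * n ^ (r + 1) + r * (n * n) + n ^ (r + 1) + 1 := by
  unfold circ
  rw [ofFintype_size]
  simp

theorem sum_mult (n r : ℕ) (c : Fin r × (Fin (r + 1) → Fin n)) :
    ∑ e, mult n r c e = Dg n r c.1 := by
  unfold mult Dg
  rw [Finset.sum_comm, Finset.card_filter, ← Fin.sum_univ_eq_sum_range
    (fun s => if (c.1 : ℕ) * r + s < n then 1 else 0)]
  apply Finset.sum_congr rfl
  intro s _
  by_cases h : (c.1 : ℕ) * r + s < n
  · rw [if_pos h, Fintype.sum_eq_single (⟨_, h⟩, c.2 s.castSucc, c.2 s.succ)]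
    · simp
    · rintro ⟨t, i, j⟩ hne
      rw [if_neg]
      rintro ⟨h1, h2, h3⟩
      apply hne
      simp only at h1 h2 h3
      rw [← h2, ← h3]
      congr 1
      exact Fin.ext h1.symm
  · rw [if_neg h]
    apply Finset.sum_eq_zero
    rintro ⟨t, i, j⟩ _
    rw [if_neg]
    rintro ⟨h1, _⟩
    simp only at h1
    have := t.isLt
    omega

theorem circ_hom (n r : ℕ) : (circ K n r).IsSyntHomogeneous := by
  unfold circ
  apply ofFintype_hom _ _ _ _ _ _ (fun _ => 1) (fun g => Dg n r g.1) (∑ b : Fin r, Dg n r b)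
  · intro g l _
    simp
  · intro g c h
    simp only [mul_one]
    rw [sum_mult]
    have : g.1 = c.1 := by
      unfold coef at h
      by_contra hne
      apply h
      rw [if_neg]
      rintro ⟨h1, _⟩
      exact hne h1
    rw [this]
  · intro q _
    rw [Fintype.sum_prod_type]
    apply Finset.sum_congr rfl
    intro b _
    rw [Fintype.sum_eq_single (q b.castSucc, q b.succ)]
    · simp [mult4]
    · rintro ⟨i, j⟩ hne
      unfold mult4
      rw [if_neg, zero_mul]
      rintro ⟨h1, h2⟩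
      apply hne
      simp only at h1 h2
      rw [h1, h2]

theorem circ_eval (n r : ℕ) (hn : 1 ≤ n) (hr : n ≤ r * r) : (circ K n r).eval = IMM K n n := by
  rw [IMM_eq_mp K n r hn hr, ← ofFn_prod, prod_ofFn_apply]
  unfold circ
  rw [ofFintype_eval]
  apply Finset.sum_congr rfl
  intro q _
  -- output coefficient
  have hq : (q 0 = (⟨0, hn⟩ : Fin n) ∧ q (Fin.last r) = ⟨0, hn⟩) ↔
      ((q 0 : ℕ) = 0 ∧ (q (Fin.last r) : ℕ) = 0) := by
    rw [Fin.ext_iff, Fin.ext_iff]
  -- bottom gates
  have hbot : ∀ e : Fin n × Fin n × Fin n, (∑ l : Fin n × Fin n × Fin n,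
      MvPolynomial.C (if e = l then (1 : K) else 0) *
        (Sum.elim MvPolynomial.X MvPolynomial.C (Sum.inl l : (Fin n × Fin n × Fin n) ⊕ K) :
          MvPolynomial (Fin n × Fin n × Fin n) K)) = X e := by
    intro e
    rw [Fintype.sum_eq_single e]
    · simp
    · intro l hl
      rw [if_neg (Ne.symm hl)]
      simp
  simp only [hbot]
  -- product gates
  have hprod : ∀ c : Fin r × (Fin (r + 1) → Fin n), (∏ e : Fin n × Fin n × Fin n,
      (X e : MvPolynomial (Fin n × Fin n × Fin n) K) ^ mult n r c e) =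
      ∏ s : Fin r, if h : (c.1 : ℕ) * r + s < n then
        X (⟨_, h⟩, c.2 s.castSucc, c.2 s.succ) else 1 := by
    intro c
    unfold mult
    simp only [← Finset.prod_pow_eq_pow_sum]
    rw [Finset.prod_comm]
    apply Finset.prod_congr rfl
    intro s _
    by_cases h : (c.1 : ℕ) * r + s < n
    · rw [dif_pos h, Fintype.prod_eq_single (⟨_, h⟩, c.2 s.castSucc, c.2 s.succ)]
      · simp
      · rintro ⟨t, i, j⟩ hne
        rw [if_neg, pow_zero]
        rintro ⟨h1, h2, h3⟩
        apply hne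
        simp only at h1 h2 h3
        rw [← h2, ← h3]
        congr 1
        exact Fin.ext h1.symm
    · rw [dif_neg h]
      apply Finset.prod_eq_one
      rintro ⟨t, i, j⟩ _
      rw [if_neg, pow_zero]
      rintro ⟨h1, _⟩
      simp only at h1
      have := t.isLt
      omega
  simp only [hprod]
  -- middle sums
  have hmid : ∀ g : Fin r × Fin n × Fin n, (∑ c : Fin r × (Fin (r + 1) → Fin n),
      MvPolynomial.C (coef K n r g c) * ∏ s : Fin r, (if h : (c.1 : ℕ) * r + s < n then
        (X (⟨_, h⟩, c.2 s.castSucc, c.2 s.succ) : MvPolynomial (Fin n × Fin n × Fin n) K)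
        else 1)) = mp (NN K n) (g.1 * r) r g.2.1 g.2.2 := by
    intro g
    rw [← ofFn_prod, prod_ofFn_apply, Fintype.sum_prod_type, Fintype.sum_eq_single g.1]
    · apply Finset.sum_congr rfl
      intro p _
      unfold coef
      simp only [true_and]
      by_cases hp : p 0 = g.2.1 ∧ p (Fin.last r) = g.2.2
      · rw [if_pos hp]
        by_cases hs : ∀ s : Fin r, n ≤ (g.1 : ℕ) * r + s → p s.castSucc = p s.succ
        · rw [if_pos ⟨hp.1, hp.2, hs⟩, map_one, one_mul]
          apply Finset.prod_congr rfl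
          intro s _
          unfold NN
          by_cases h : (g.1 : ℕ) * r + s < n
          · rw [dif_pos h, dif_pos h, Matrix.of_apply]
          · rw [dif_neg h, dif_neg h, hs s (by omega), Matrix.one_apply_eq]
        · rw [if_neg (fun h => hs h.2.2), map_zero, zero_mul]
          push Not at hs
          obtain ⟨s, hs1, hs2⟩ := hs
          symm
          apply Finset.prod_eq_zero (Finset.mem_univ s)
          unfold NN
          rw [dif_neg (by omega), Matrix.one_apply_ne hs2]
      · rw [if_neg hp, if_neg (fun h => hp ⟨h.1, h.2.1⟩), map_zero, zero_mul]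
    · intro b hb
      apply Finset.sum_eq_zero
      intro p _
      unfold coef
      rw [if_neg (fun h => hb h.1.symm), map_zero, zero_mul]
  simp only [hmid]
  -- upper products
  have hup : (∏ g : Fin r × Fin n × Fin n, mp (NN K n) (g.1 * r) r g.2.1 g.2.2 ^ mult4 n r q g) =
      ∏ b : Fin r, mp (NN K n) (b * r) r (q b.castSucc) (q b.succ) := by
    rw [Fintype.prod_prod_type]
    apply Finset.prod_congr rfl
    intro b _
    rw [Fintype.prod_eq_single (q b.castSucc, q b.succ)]
    · simp [mult4]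
    · rintro ⟨i, j⟩ hne
      unfold mult4
      rw [if_neg, pow_zero]
      rintro ⟨h1, h2⟩
      apply hne
      simp only at h1 h2
      rw [h1, h2]
  rw [hup]
  unfold co
  by_cases h : (q 0 : ℕ) = 0 ∧ (q (Fin.last r) : ℕ) = 0
  · rw [if_pos h, if_pos (hq.2 h), map_one, one_mul]
    apply Finset.prod_congr rfl
    intro b _
    simp
  · rw [if_neg h, if_neg (fun h' => h (hq.1 h')), map_zero, zero_mul]

end UpperAux

theorem exists_circuit : ∃ A : ℕ, ∀ (K : Type u) [Field K] (n : ℕ), 2 ≤ n →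
    ∃ C : Circuit K (Fin n × Fin n × Fin n),
      C.IsSyntHomogeneous ∧ C.eval = IMM K n n ∧ C.size ≤ n ^ (A * Nat.sqrt n) := by
  refine ⟨7, fun K _ n hn => ?_⟩
  have hlt : n < (Nat.sqrt n + 1) * (Nat.sqrt n + 1) := Nat.lt_succ_sqrt n
  refine ⟨UpperAux.circ K n (Nat.sqrt n + 1), UpperAux.circ_hom K n _,
    UpperAux.circ_eval K n _ (by omega) hlt.le, ?_⟩
  rw [UpperAux.circ_size]
  set s := Nat.sqrt n with hs
  have hs1 : 1 ≤ s := by
    rw [hs, Nat.le_sqrt]; omega
  have hsn : s + 1 ≤ n := by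
    have : s < n := Nat.sqrt_lt_self (by omega)
    omega
  have hn0 : 0 < n := by omega
  have e1 : n * (n * n) ≤ n ^ (4 * s) := by
    calc n * (n * n) = n ^ 3 := by ring
      _ ≤ n ^ (4 * s) := Nat.pow_le_pow_right hn0 (by omega)
  have e2 : (s + 1) * n ^ (s + 1 + 1) ≤ n ^ (4 * s) := by
    calc (s + 1) * n ^ (s + 1 + 1) ≤ n * n ^ (s + 1 + 1) := Nat.mul_le_mul_right _ hsn
      _ = n ^ (s + 3) := by ring
      _ ≤ n ^ (4 * s) := Nat.pow_le_pow_right hn0 (by omega)
  have e3 : (s + 1) * (n * n) ≤ n ^ (4 * s) := by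
    calc (s + 1) * (n * n) ≤ n * (n * n) := Nat.mul_le_mul_right _ hsn
      _ ≤ n ^ (4 * s) := e1
  have e4 : n ^ (s + 1 + 1) ≤ n ^ (4 * s) := Nat.pow_le_pow_right hn0 (by omega)
  have e5 : 1 ≤ n ^ (4 * s) := Nat.one_le_pow _ _ hn0
  have e6 : 8 * n ^ (4 * s) ≤ n ^ (7 * s) := by
    calc 8 * n ^ (4 * s) ≤ n ^ 3 * n ^ (4 * s) := by
          apply Nat.mul_le_mul_right
          calc 8 = 2 ^ 3 := by norm_num
            _ ≤ n ^ 3 := Nat.pow_le_pow_left hn 3
      _ = n ^ (3 + 4 * s) := by rw [pow_add]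
      _ ≤ n ^ (7 * s) := Nat.pow_le_pow_right hn0 (by omega)
  omega

end Vale.Agent.P346
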