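import Vale.Agent.P346.Core
import Vale.Agent.P346.Types
import Vale.Agent.P346.MuHankel
import Vale.Agent.P346.Measure
import Vale.Agent.P346.NormalForm
import Vale.Agent.P346.HankelRows
import Vale.Agent.P346.GoodWeight
import Vale.Agent.P346.Numeric
import Vale.Agent.P346.Upper
import Vale.Agent.P346.IMMFacts

/-!
# P346: assembly
-/

namespace Vale.Agent.P346

open MvPolynomial

universe u v

open Classical in
theorem mu_hankel_ge {K : Type u} [Field K] {n h : ℕ} (hn : 1 ≤ n) {q : ℝ} (hq : 0 < q) :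
    (∑ U : Finset (HVar n),
      if Good n (2 * n - 1) n 1 (chi U) then q ^ grade (phiH h n) U else 0) ≤
      mu (phiH h n) (∑ s ∈ Finset.range n, ty h s) q (hankelPoly K n) :=
  mu_hankel_ge_of_rows (fun a ha h0 => hankel_rows hn a ha h0) hq

theorem Ztot_pos {ι : Type*} [DecidableEq ι] [Fintype ι] (φ : ι → ℤ) {q : ℝ} (hq : 0 < q) :
    0 < Ztot φ q := Finset.sum_pos (fun _ _ => zpow_pos hq _) Finset.univ_nonempty

theorem phiH_cases (h n : ℕ) (i : HVar n) : phiH h n i = 3 * h ∨ phiH h n i = -(3 * h + 1) := by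
  unfold phiH ty; split_ifs
  · left; rfl
  · right; rfl

theorem lower_bound : ∃ c : ℝ, 0 < c ∧ ∃ N₀ : ℕ, ∀ n : ℕ, N₀ ≤ n → ∀ (K : Type u) [Field K]
    (C : Circuit K (Fin n × Fin n × Fin n)), C.IsSyntHomogeneous → C.eval = IMM K n n →
    (n : ℝ) ^ (c * √n) ≤ C.size := by
  obtain ⟨c, hc, N₁, hN₁⟩ := final_numeric
  obtain ⟨N₂, hN₂⟩ := good_weight
  refine ⟨c, hc, max (max N₁ N₂) 1, fun n hn K _ C hC hCe => ?_⟩
  have hn1 : N₁ ≤ n := le_trans (le_trans (le_max_left _ _) (le_max_left _ _)) hn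
  have hn2 : N₂ ≤ n := le_trans (le_trans (le_max_right _ _) (le_max_left _ _)) hn
  have hn3 : 1 ≤ n := le_trans (le_max_right _ _) hn
  have hnR : (1 : ℝ) ≤ n := by exact_mod_cast hn3
  set h := Nat.sqrt n + 1 with hh
  set ρ := n / (8 * h) with hρ
  have hh1 : 1 ≤ h := by omega
  have h1 : 8 * h * ρ ≤ n := Nat.mul_div_le n (8 * h)
  have h2 : ρ ≤ h := by
    have hlt : n < h * h := by simpa [hh] using Nat.lt_succ_sqrt n
    have : ρ < h := by
      rw [hρ]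
      apply Nat.div_lt_of_lt_mul
      nlinarith
    omega
  have hhR : (0 : ℝ) < h := by exact_mod_cast hh1
  -- the base `q`
  set q : ℝ := (n : ℝ) ^ (1 / (24 * h) : ℝ) with hq
  have hq1 : 1 ≤ q := Real.one_le_rpow hnR (by positivity)
  have hq0 : 0 < q := by linarith
  have hq6 : q ^ (6 * h) = (n : ℝ) ^ (1 / 4 : ℝ) := by
    rw [hq, ← Real.rpow_natCast, ← Real.rpow_mul (by positivity)]
    congr 1
    push_cast
    field_simp
    norm_num
  -- normal form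
  obtain ⟨N, T, hN, hT, hsum⟩ := C.exists_isTerm hC (n := n) (h := h) (ρ := ρ)
    (by rw [hCe]; exact IMM_isHomogeneous n n) (by rw [hCe]; exact IMM_ne_zero hn3) hh1 h1 h2
  have hf : hankelPoly K n = ∑ k, MvPolynomial.rename (hankelMap n) (T k) := by
    rw [hankelPoly, ← hCe, hsum, map_sum]
  -- the grade of the hard polynomial
  set Φ : ℤ := ∑ s ∈ Finset.range n, ty h s with hΦ
  have hΦmod : Φ = ((3 * h * n % (6 * h + 1) : ℕ) : ℤ) := sum_ty h n
  have hΦ0 : 0 ≤ Φ := by rw [hΦmod]; positivity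
  have hΦ6 : Φ ≤ 6 * h := by
    rw [hΦmod]
    have := Nat.mod_lt (3 * h * n) (show 0 < 6 * h + 1 by omega)
    omega
  have hZ : 0 < Ztot (phiH h n) q := Ztot_pos _ hq0
  have lo := hN₂ n h hn2 hh1 q hq1 hq6
  have mid := mu_hankel_ge (K := K) (n := n) (h := h) hn3 hq0
  have up : mu (phiH h n) Φ q (hankelPoly K n) ≤
      (C.size : ℝ) ^ 2 * (2 ^ (2 * ρ) * (n + 1) * q ^ (Φ - h * ρ)) * Ztot (phiH h n) q := by
    rw [hf]
    refine (mu_sum_le _ _ _ _ hq0).trans ?_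
    refine (Finset.sum_le_sum fun k _ =>
      mu_isTerm_le (phiH_cases h n) hh1 hq1 hΦ0 ((hT k).rename (hankelMap n))).trans ?_
    rw [Finset.sum_const, Finset.card_univ, Fintype.card_fin, nsmul_eq_mul]
    have : (N : ℝ) ≤ (C.size : ℝ) ^ 2 := by exact_mod_cast hN
    rw [mul_assoc ((C.size : ℝ) ^ 2)]
    exact mul_le_mul_of_nonneg_right this (by positivity)
  have key := (lo.trans mid).trans up
  have key2 : (1 / 2) * (n : ℝ) ^ (-(3 / 4) : ℝ) * Real.exp (-√n) ≤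
      (C.size : ℝ) ^ 2 * (2 ^ (2 * ρ) * (n + 1) * q ^ (Φ - h * ρ)) :=
    le_of_mul_le_mul_right key hZ
  have hqe : q ^ (Φ - h * ρ) ≤ (n : ℝ) ^ (1 / 4 : ℝ) * (n : ℝ) ^ (-(ρ / 24) : ℝ) := by
    have e1 : q ^ (Φ - h * ρ) ≤ q ^ ((6 * h : ℤ) - h * ρ) :=
      zpow_le_zpow_right₀ hq1 (by omega)
    refine e1.trans (le_of_eq ?_)
    rw [hq, ← Real.rpow_intCast, ← Real.rpow_mul (by positivity), ← Real.rpow_add (by positivity)]
    congr 1
    push_cast
    field_simp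
    ring
  refine hN₁ n hn1 h ρ C.size hh hρ (key2.trans ?_)
  gcongr

theorem minSize_attained (K : Type u) [Field K] (n : ℕ) (hn : 2 ≤ n) :
    ∃ C : Circuit K (Fin n × Fin n × Fin n),
      C.IsSyntHomogeneous ∧ C.eval = IMM K n n ∧ C.size = minSize K n := by
  obtain ⟨A, hA⟩ := exists_circuit.{u}
  obtain ⟨C, hC, hCe, -⟩ := hA K n hn
  have hne : {s : ℕ | ∃ C : Circuit K (Fin n × Fin n × Fin n),
      C.IsSyntHomogeneous ∧ C.eval = IMM K n n ∧ C.size = s}.Nonempty := ⟨_, C, hC, hCe, rfl⟩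
  exact Nat.sInf_mem hne

theorem main_theorem : ∃ c A : ℝ, 0 < c ∧ 0 < A ∧ ∃ N₀ : ℕ, ∀ n : ℕ, N₀ ≤ n →
    ∀ (K : Type u) [Field K],
      (n : ℝ) ^ (c * √n) ≤ minSize K n ∧ (minSize K n : ℝ) ≤ (n : ℝ) ^ (A * √n) := by
  obtain ⟨c, hc, N₁, h₁⟩ := lower_bound.{u}
  obtain ⟨A, hA⟩ := exists_circuit.{u}
  refine ⟨c, A + 1, hc, by positivity, max N₁ 2, fun n hn K _ => ?_⟩
  have hn1 : N₁ ≤ n := le_trans (le_max_left _ _) hn
  have hn2 : 2 ≤ n := le_trans (le_max_right _ _) hn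
  obtain ⟨C, hC, hCe, hCs⟩ := hA K n hn2
  have hne : {s : ℕ | ∃ C : Circuit K (Fin n × Fin n × Fin n),
      C.IsSyntHomogeneous ∧ C.eval = IMM K n n ∧ C.size = s}.Nonempty := ⟨_, C, hC, hCe, rfl⟩
  constructor
  · obtain ⟨C', hC', hCe', hs'⟩ := Nat.sInf_mem hne
    unfold minSize
    rw [← hs']
    exact h₁ n hn1 K C' hC' hCe'
  · have h1 : minSize K n ≤ C.size := Nat.sInf_le ⟨C, hC, hCe, rfl⟩
    have h2 : (minSize K n : ℝ) ≤ ((n ^ (A * Nat.sqrt n) : ℕ) : ℝ) := by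
      exact_mod_cast h1.trans hCs
    refine h2.trans ?_
    push_cast
    rw [← Real.rpow_natCast]
    apply Real.rpow_le_rpow_of_exponent_le (by exact_mod_cast (by omega : 1 ≤ n))
    push_cast
    have h3 : (Nat.sqrt n : ℝ) ≤ √n := Real.nat_sqrt_le_real_sqrt
    have h4 : 0 ≤ √(n:ℝ) := Real.sqrt_nonneg _
    nlinarith [(Nat.cast_nonneg A : (0:ℝ) ≤ A)]

end Vale.Agent.P346
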